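/-
Row 47 (S0066), backup formalization of helper72's "zigzag bracket" construction
(findings id 307).  Tags for the lines of the matrix.
-/
import Mathlib

set_option autoImplicit false

namespace Crest.Agent.Lib.ZigZagB

/-- Row tags. `κ = false` is the opening side, `κ = true` the closing side. -/
inductive RTag
  | pad (i : ℕ)
  | rs (b : Bool) (i : ℕ)
  | thin (j : ℕ) (κ : Bool) (t : ℕ) (i : ℕ)
  | zs (i : ℕ)
  | f (j : ℕ) (i : ℕ)
  | g (j c : ℕ) (i : ℕ)
  | k (j c : ℕ) (i : ℕ)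
  deriving DecidableEq

/-- Column tags. -/
inductive CTag
  | pad (i : ℕ)
  | cs (b : Bool) (i : ℕ)
  | thin (j : ℕ) (κ : Bool) (t : ℕ)
  | w (c : ℕ) (i : ℕ)
  | anc (i : ℕ)
  | zs (i : ℕ)
  | f (j : ℕ) (i : ℕ)
  | g (j c : ℕ) (i : ℕ)
  | k (j c : ℕ) (i : ℕ)
  deriving DecidableEq

/-- width of a row node at level `j`: prefix of length `2j-1` of a leaf `t < 2^(2J-1)`. -/
def Wr (J j : ℕ) : ℕ := 2 ^ (2 * J - 2 * j)
/-- width of a column node at level `k`: prefix of length `2k`. -/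
def Wc (J k : ℕ) : ℕ := 2 ^ (2 * J - 1 - 2 * k)

/-- adjacency of the thin lines -/
def rel (J j t k u : ℕ) : Prop :=
  (k = j ∧ u / Wr J j = t / Wr J j) ∨ (j = k + 1 ∧ j ≠ J ∧ t / Wc J k = u / Wc J k)

instance (J j t k u : ℕ) : Decidable (rel J j t k u) := by unfold rel; infer_instance

open CTag in
/-- the row of a `rs` line -/
def Mrs : CTag → Bool
  | .pad _ => true
  | .cs _ _ => false
  | .thin _ _ _ => true
  | .w _ _ => true
  | .anc _ => true
  | .zs _ => true
  | .f _ _ => false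
  | .g _ _ _ => false
  | .k _ _ _ => false

/-- the row of a thin line at level `j` and leaf `t` -/
def Mthin (J j t : ℕ) : CTag → Bool
  | .pad _ => true
  | .cs _ _ => true
  | .thin k _ u => decide (rel J j t k u)
  | .w _ _ => false
  | .anc _ => decide (j = J)
  | .zs _ => false
  | .f k _ => decide (k = j)
  | .g k c _ => decide (k = j ∧ (t / Wr J j) % 2 = c)
  | .k k c _ => decide (k = j ∧ (t / Wc J (j - 1)) % 2 = c)

/-- the row of a `zs` line -/
def Mzs : CTag → Bool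
  | .pad _ => true
  | .cs _ _ => true
  | .thin _ _ _ => false
  | .w _ _ => false
  | .anc _ => false
  | .zs _ => false
  | .f _ _ => true
  | .g _ _ _ => false
  | .k _ _ _ => true

/-- the row of an `f j` line -/
def Mf (J j : ℕ) : CTag → Bool
  | .pad _ => true
  | .cs _ _ => false
  | .thin k _ _ => decide (k = j)
  | .w _ _ => false
  | .anc _ => decide (j + 1 = J)
  | .zs _ => true
  | .f _ _ => false
  | .g k _ _ => decide (k = j + 1)
  | .k _ _ _ => false

/-- the row of a `g j c` line -/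
def Mg (J j c : ℕ) : CTag → Bool
  | .pad _ => true
  | .cs _ _ => false
  | .thin k _ u => decide (k = j ∧ (u / Wc J j) % 2 = c)
  | .w _ _ => false
  | .anc _ => false
  | .zs _ => false
  | .f k _ => decide (k = j)
  | .g _ _ _ => false
  | .k k c' _ => decide (k = j + 1 ∧ c' = c)

/-- the row of a `k j c` line -/
def Mk (J j c : ℕ) : CTag → Bool
  | .pad _ => true
  | .cs _ _ => false
  | .thin k _ u => decide (k = j ∧ (u / Wr J j) % 2 = c)
  | .w c' _ => decide (j = J ∧ c' = c)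
  | .anc _ => false
  | .zs _ => true
  | .f _ _ => false
  | .g k c' _ => decide (k = j ∧ c' = c)
  | .k _ _ _ => false

/-- The matrix, at the level of tags. -/
def M (J : ℕ) : RTag → CTag → Bool
  | .pad _ => fun _ => true
  | .rs _ _ => Mrs
  | .thin j _ t _ => Mthin J j t
  | .zs _ => Mzs
  | .f j _ => Mf J j
  | .g j c _ => Mg J j c
  | .k j c _ => Mk J j c

/-- kind rank of a row tag -/
def rkR : RTag → ℕ
  | .pad _ => 0
  | .rs false _ => 1
  | .thin _ _ _ _ => 2
  | .rs true _ => 3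
  | .zs _ => 4
  | .f _ _ => 5
  | .g _ _ _ => 6
  | .k _ _ _ => 7

/-- kind rank of a column tag -/
def rkC : CTag → ℕ
  | .pad _ => 0
  | .cs false _ => 1
  | .thin _ _ _ => 2
  | .w _ _ => 3
  | .anc _ => 4
  | .cs true _ => 5
  | .zs _ => 6
  | .f _ _ => 7
  | .g _ _ _ => 8
  | .k _ _ _ => 9

/-- The `(a, phase, level)` part of the key of a thin line, with widths `W`. -/
def tk (W : ℕ → ℕ) (J l : ℕ) (κ : Bool) (t : ℕ) : ℕ × ℕ × ℕ :=
  if κ then ((t / W l + 1) * W l, 0, J - l) else (t / W l * W l, 1, l)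

/-- The key type: lexicographic 7-tuples. -/
abbrev Key := ℕ ×ₗ ℕ ×ₗ ℕ ×ₗ ℕ ×ₗ ℕ ×ₗ ℕ ×ₗ ℕ

/-- assemble a key -/
def mkKey (a b c d e f g : ℕ) : Key :=
  toLex (a, toLex (b, toLex (c, toLex (d, toLex (e, toLex (f, g))))))

/-- key of a row tag -/
def rkey (J : ℕ) : RTag → Key
  | .pad i => mkKey 0 0 0 0 0 i 0
  | .rs b i => mkKey (if b then 3 else 1) 0 0 0 0 i 0
  | .thin j κ t i =>
      let x := tk (Wr J) J j κ t
      mkKey 2 x.1 x.2.1 x.2.2 t i j
  | .zs i => mkKey 4 0 0 0 0 i 0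
  | .f j i => mkKey 5 j 0 0 0 i 0
  | .g j c i => mkKey 6 j c 0 0 i 0
  | .k j c i => mkKey 7 j c 0 0 i 0

/-- key of a column tag -/
def ckey (J : ℕ) : CTag → Key
  | .pad i => mkKey 0 0 0 0 0 i 0
  | .cs b i => mkKey (if b then 5 else 1) 0 0 0 0 i 0
  | .thin j κ t =>
      let x := tk (Wc J) J j κ t
      mkKey 2 x.1 x.2.1 x.2.2 t 0 j
  | .w c i => mkKey 3 c 0 0 0 i 0
  | .anc i => mkKey 4 0 0 0 0 i 0
  | .zs i => mkKey 6 0 0 0 0 i 0
  | .f j i => mkKey 7 j 0 0 0 i 0
  | .g j c i => mkKey 8 j c 0 0 i 0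
  | .k j c i => mkKey 9 j c 0 0 i 0

theorem mkKey_lt_iff (a b c d e f g a' b' c' d' e' f' g' : ℕ) :
    mkKey a b c d e f g < mkKey a' b' c' d' e' f' g' ↔
      a < a' ∨ a = a' ∧ (b < b' ∨ b = b' ∧ (c < c' ∨ c = c' ∧ (d < d' ∨ d = d' ∧
        (e < e' ∨ e = e' ∧ (f < f' ∨ f = f' ∧ g < g'))))) := by
  simp only [mkKey, Prod.Lex.toLex_lt_toLex, ofLex_toLex]

theorem mkKey_inj {a b c d e f g a' b' c' d' e' f' g' : ℕ}
    (h : mkKey a b c d e f g = mkKey a' b' c' d' e' f' g') :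
    a = a' ∧ b = b' ∧ c = c' ∧ d = d' ∧ e = e' ∧ f = f' ∧ g = g' := by
  simpa [mkKey] using h

/-- The core pattern. Rows `r1, x, r3, w1, w2`, columns `s1, y, s3, z1, z2`. -/
def core : Fin 5 → Fin 5 → Bool :=
  ![![true, true, true, true, false],
    ![true, false, true, false, true],
    ![true, true, true, true, false],
    ![true, false, true, true, true],
    ![false, true, false, true, true]]

/-- The pattern `H`: 61 all-one rows, 61 all-one columns, then the core. -/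
def HH : Fin 66 → Fin 66 → Bool := fun i j =>
  if h : 61 ≤ i.val ∧ 61 ≤ j.val then
    core ⟨i.val - 61, by omega⟩ ⟨j.val - 61, by omega⟩
  else true

end Crest.Agent.Lib.ZigZagB
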