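/- Classification of the copies of the core pattern in the tag matrix. -/
import Crest.Agent.Lib.ZigZagB.Defs

set_option autoImplicit false

namespace Crest.Agent.Lib.ZigZagB

theorem M_pad_col (J : ℕ) (r : RTag) (i : ℕ) : M J r (.pad i) = true := by
  cases r <;> rfl

/-! ### Rank information on each kind of row -/

theorem one_rs {c : CTag} (h : Mrs c = true) :
    rkC c = 0 ∨ rkC c = 2 ∨ rkC c = 3 ∨ rkC c = 4 ∨ rkC c = 6 := by
  cases c <;> simp_all [Mrs, rkC]

theorem zero_rs {c : CTag} (h : Mrs c = false) :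
    rkC c = 1 ∨ rkC c = 5 ∨ rkC c = 7 ∨ rkC c = 8 ∨ rkC c = 9 := by
  cases c with
  | cs b i => cases b <;> simp [rkC]
  | _ => simp_all [Mrs, rkC]

theorem one_zs {c : CTag} (h : Mzs c = true) :
    rkC c = 0 ∨ rkC c = 1 ∨ rkC c = 5 ∨ rkC c = 7 ∨ rkC c = 9 := by
  cases c with
  | cs b i => cases b <;> simp [rkC]
  | _ => simp_all [Mzs, rkC]

theorem zero_zs {c : CTag} (h : Mzs c = false) :
    rkC c = 2 ∨ rkC c = 3 ∨ rkC c = 4 ∨ rkC c = 6 ∨ rkC c = 8 := by
  cases c with
  | cs b i => simp [Mzs] at h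
  | _ => simp_all [Mzs, rkC]

theorem one_f {J j : ℕ} {c : CTag} (h : Mf J j c = true) :
    rkC c = 0 ∨ rkC c = 2 ∨ rkC c = 4 ∨ rkC c = 6 ∨ rkC c = 8 := by
  cases c with
  | cs b i => simp [Mf] at h
  | _ => simp_all [Mf, rkC]

theorem one_g {J j c' : ℕ} {c : CTag} (h : Mg J j c' c = true) :
    rkC c = 0 ∨ rkC c = 2 ∨ rkC c = 7 ∨ rkC c = 9 := by
  cases c with
  | cs b i => simp [Mg] at h
  | _ => simp_all [Mg, rkC]

theorem one_k {J j c' : ℕ} {c : CTag} (h : Mk J j c' c = true) :
    rkC c = 0 ∨ rkC c = 2 ∨ rkC c = 3 ∨ rkC c = 6 ∨ rkC c = 8 := by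
  cases c with
  | cs b i => simp [Mk] at h
  | _ => simp_all [Mk, rkC]

/-! ### Decoding ranks -/

theorem rkC_eq_zero {c : CTag} (h : rkC c = 0) : ∃ i, c = .pad i := by
  cases c with
  | pad i => exact ⟨i, rfl⟩
  | cs b i => cases b <;> simp [rkC] at h
  | _ => simp [rkC] at h

theorem rkC_eq_one {c : CTag} (h : rkC c = 1) : ∃ i, c = .cs false i := by
  cases c with
  | cs b i => cases b <;> simp_all [rkC]
  | _ => simp [rkC] at h

theorem rkC_eq_two {c : CTag} (h : rkC c = 2) : ∃ k κ u, c = .thin k κ u := by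
  cases c with
  | thin k κ u => exact ⟨k, κ, u, rfl⟩
  | cs b i => cases b <;> simp [rkC] at h
  | _ => simp [rkC] at h

theorem rkR_eq_two {r : RTag} (h : rkR r = 2) : ∃ j κ t i, r = .thin j κ t i := by
  cases r with
  | thin j κ t i => exact ⟨j, κ, t, i, rfl⟩
  | rs b i => cases b <;> simp [rkR] at h
  | _ => simp [rkR] at h

theorem rkR_eq_four {r : RTag} (h : rkR r = 4) : ∃ i, r = .zs i := by
  cases r with
  | zs i => exact ⟨i, rfl⟩
  | rs b i => cases b <;> simp [rkR] at h
  | _ => simp [rkR] at h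

theorem rkC_le (c : CTag) : rkC c ≤ 9 := by
  cases c with
  | cs b i => cases b <;> simp [rkC]
  | _ => simp [rkC]

theorem rkR_le (r : RTag) : rkR r ≤ 7 := by
  cases r with
  | rs b i => cases b <;> simp [rkR]
  | _ => simp [rkR]

theorem rkR_eq_one {r : RTag} (h : rkR r = 1) : ∃ i, r = .rs false i := by
  cases r with
  | rs b i => cases b <;> simp_all [rkR]
  | _ => simp [rkR] at h

theorem rkR_eq_three {r : RTag} (h : rkR r = 3) : ∃ i, r = .rs true i := by
  cases r with
  | rs b i => cases b <;> simp_all [rkR]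
  | _ => simp [rkR] at h

theorem rkR_eq_five {r : RTag} (h : rkR r = 5) : ∃ j i, r = .f j i := by
  cases r with
  | f j i => exact ⟨j, i, rfl⟩
  | rs b i => cases b <;> simp [rkR] at h
  | _ => simp [rkR] at h

theorem rkR_eq_six {r : RTag} (h : rkR r = 6) : ∃ j c i, r = .g j c i := by
  cases r with
  | g j c i => exact ⟨j, c, i, rfl⟩
  | rs b i => cases b <;> simp [rkR] at h
  | _ => simp [rkR] at h

theorem rkR_eq_seven {r : RTag} (h : rkR r = 7) : ∃ j c i, r = .k j c i := by
  cases r with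
  | k j c i => exact ⟨j, c, i, rfl⟩
  | rs b i => cases b <;> simp [rkR] at h
  | _ => simp [rkR] at h

theorem rkC_eq_three {c : CTag} (h : rkC c = 3) : ∃ c' i, c = .w c' i := by
  cases c with
  | w c' i => exact ⟨c', i, rfl⟩
  | cs b i => cases b <;> simp [rkC] at h
  | _ => simp [rkC] at h

theorem rkC_eq_four {c : CTag} (h : rkC c = 4) : ∃ i, c = .anc i := by
  cases c with
  | anc i => exact ⟨i, rfl⟩
  | cs b i => cases b <;> simp [rkC] at h
  | _ => simp [rkC] at h

theorem rkC_eq_five {c : CTag} (h : rkC c = 5) : ∃ i, c = .cs true i := by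
  cases c with
  | cs b i => cases b <;> simp_all [rkC]
  | _ => simp [rkC] at h

theorem rkC_eq_six {c : CTag} (h : rkC c = 6) : ∃ i, c = .zs i := by
  cases c with
  | zs i => exact ⟨i, rfl⟩
  | cs b i => cases b <;> simp [rkC] at h
  | _ => simp [rkC] at h

theorem rkC_eq_seven {c : CTag} (h : rkC c = 7) : ∃ j i, c = .f j i := by
  cases c with
  | f j i => exact ⟨j, i, rfl⟩
  | cs b i => cases b <;> simp [rkC] at h
  | _ => simp [rkC] at h

theorem rkC_eq_eight {c : CTag} (h : rkC c = 8) : ∃ j c' i, c = .g j c' i := by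
  cases c with
  | g j c' i => exact ⟨j, c', i, rfl⟩
  | cs b i => cases b <;> simp [rkC] at h
  | _ => simp [rkC] at h

theorem rkC_eq_nine {c : CTag} (h : rkC c = 9) : ∃ j c' i, c = .k j c' i := by
  cases c with
  | k j c' i => exact ⟨j, c', i, rfl⟩
  | cs b i => cases b <;> simp [rkC] at h
  | _ => simp [rkC] at h

/-- A width fact: `Wr J k = 2 * Wc J k` for `k < J`. -/
theorem Wr_eq (J k : ℕ) (hk : k < J) : Wr J k = 2 * Wc J k := by
  unfold Wr Wc
  rw [← pow_succ']
  congr 1
  omega

/-- A width fact: `Wc J k = 2 * Wr J (k+1)` for `k < J`. -/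
theorem Wc_eq (J k : ℕ) (hk : k < J) : Wc J k = 2 * Wr J (k + 1) := by
  unfold Wr Wc
  rw [← pow_succ']
  congr 1
  omega

theorem Wr_pos (J j : ℕ) : 0 < Wr J j := by unfold Wr; positivity
theorem Wc_pos (J j : ℕ) : 0 < Wc J j := by unfold Wc; positivity

theorem div_eq_of_div_two {a b W : ℕ} (h : a / (2 * W) = b / (2 * W))
    (h2 : (a / W) % 2 = (b / W) % 2) : a / W = b / W := by
  have h3 : a / W / 2 = b / W / 2 := by
    rw [Nat.div_div_eq_div_mul, Nat.div_div_eq_div_mul, mul_comm W 2]; exact h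
  omega

theorem div_two_of_div {a b W : ℕ} (h : a / W = b / W) : a / (2 * W) = b / (2 * W) := by
  rw [mul_comm 2 W, ← Nat.div_div_eq_div_mul, ← Nat.div_div_eq_div_mul, h]

/-- thin columns of the same node have the same vector -/
theorem M_col_class (J : ℕ) (r : RTag) {k u u' : ℕ} {κ κ' : Bool} (hk : k < J)
    (h : u / Wc J k = u' / Wc J k) : M J r (.thin k κ u) = M J r (.thin k κ' u') := by
  have h2 : u / Wr J k = u' / Wr J k := by
    rw [Wr_eq J k hk]; exact div_two_of_div h
  cases r with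
  | pad i => rfl
  | rs b i => rfl
  | thin j κ₁ t i =>
    simp only [M, Mthin, rel]
    congr 1
    apply propext
    constructor
    · rintro (⟨rfl, h3⟩ | ⟨h3, h4, h5⟩)
      · exact Or.inl ⟨rfl, by rw [← h2]; exact h3⟩
      · exact Or.inr ⟨h3, h4, by rw [← h]; exact h5⟩
    · rintro (⟨rfl, h3⟩ | ⟨h3, h4, h5⟩)
      · exact Or.inl ⟨rfl, by rw [h2]; exact h3⟩
      · exact Or.inr ⟨h3, h4, by rw [h]; exact h5⟩
  | zs i => rfl
  | f j i => rfl
  | g j c i =>
    simp only [M, Mg]
    congr 1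
    apply propext
    constructor
    · rintro ⟨rfl, h3⟩; exact ⟨rfl, by rw [← h]; exact h3⟩
    · rintro ⟨rfl, h3⟩; exact ⟨rfl, by rw [h]; exact h3⟩
  | k j c i =>
    simp only [M, Mk]
    congr 1
    apply propext
    constructor
    · rintro ⟨rfl, h3⟩; exact ⟨rfl, by rw [← h2]; exact h3⟩
    · rintro ⟨rfl, h3⟩; exact ⟨rfl, by rw [h2]; exact h3⟩

/-- thin rows with same node have the same vector -/
theorem M_row_class (J : ℕ) (c : CTag) {j t t' i i' : ℕ} {κ κ' : Bool} (hj : 1 ≤ j)
    (h : t / Wr J j = t' / Wr J j) (hj2 : j ≤ J) :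
    M J (.thin j κ t i) c = M J (.thin j κ' t' i') c := by
  have hW : Wc J (j - 1) = 2 * Wr J j := by
    have := Wc_eq J (j - 1) (by omega)
    rwa [Nat.sub_add_cancel hj] at this
  have h2 : t / Wc J (j - 1) = t' / Wc J (j - 1) := by
    rw [hW]; exact div_two_of_div h
  cases c with
  | pad i => rfl
  | cs b i => rfl
  | thin k κ₁ u =>
    simp only [M, Mthin, rel]
    congr 1
    apply propext
    constructor
    · rintro (⟨rfl, h3⟩ | ⟨h3, h4, h5⟩)
      · exact Or.inl ⟨rfl, by rw [← h]; exact h3⟩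
      · subst h3
        simp only [Nat.add_sub_cancel] at h2
        exact Or.inr ⟨rfl, h4, by rw [← h2]; exact h5⟩
    · rintro (⟨rfl, h3⟩ | ⟨h3, h4, h5⟩)
      · exact Or.inl ⟨rfl, by rw [h]; exact h3⟩
      · subst h3
        simp only [Nat.add_sub_cancel] at h2
        exact Or.inr ⟨rfl, h4, by rw [h2]; exact h5⟩
  | w c i => rfl
  | anc i => rfl
  | zs i => rfl
  | f k i => rfl
  | g k c i => simp only [M, Mthin, h]
  | k k c i => simp only [M, Mthin, h2]

/-- `C₄`-freeness of the tree of thin lines. -/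
theorem no_C4 (J : ℕ) {j j' t t' k k' u u' : ℕ}
    (h1 : rel J j t k u) (h2 : rel J j t k' u') (h3 : rel J j' t' k u) (h4 : rel J j' t' k' u')
    (hkJ : k < J) (hk'J : k' < J) :
    (j = j' ∧ t / Wr J j = t' / Wr J j) ∨ (k = k' ∧ u / Wc J k = u' / Wc J k) := by
  rcases h1 with ⟨e1, h1⟩ | ⟨e1, n1, h1⟩ <;> rcases h2 with ⟨e2, h2⟩ | ⟨e2, n2, h2⟩ <;>
    rcases h3 with ⟨e3, h3⟩ | ⟨e3, n3, h3⟩ <;> rcases h4 with ⟨e4, h4⟩ | ⟨e4, n4, h4⟩
  all_goals first
    | (exfalso; omega)
    | (by_cases e : j' = j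
       · subst e
         first
         | (refine Or.inl ⟨rfl, ?_⟩; omega)
         | (by_cases e2 : k' = k
            · subst e2; refine Or.inr ⟨rfl, ?_⟩; omega
            · exfalso; omega)
       · by_cases e2 : k' = k
         · subst e2; refine Or.inr ⟨rfl, ?_⟩; omega
         · exfalso; omega)


/-! ### Column-side decoding -/

theorem M_false_rk {J : ℕ} {r : RTag} {c : CTag} (h : M J r c = false) : 1 ≤ rkR r ∧ 1 ≤ rkC c := by
  constructor
  · cases r with
    | pad i => simp [M] at h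
    | rs b i => cases b <;> simp [rkR]
    | _ => simp [rkR]
  · cases c with
    | pad i => rw [M_pad_col] at h; simp at h
    | cs b i => cases b <;> simp [rkC]
    | _ => simp [rkC]

theorem M_cs_congr (J : ℕ) (r : RTag) (b b' : Bool) (i i' : ℕ) :
    M J r (.cs b i) = M J r (.cs b' i') := by
  cases r <;> rfl

theorem M_anc_congr (J : ℕ) (r : RTag) (i i' : ℕ) : M J r (.anc i) = M J r (.anc i') := by
  cases r <;> rfl

theorem M_zs_congr (J : ℕ) (r : RTag) (i i' : ℕ) : M J r (.zs i) = M J r (.zs i') := by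
  cases r <;> rfl

theorem M_f_congr (J : ℕ) (r : RTag) (k i i' : ℕ) : M J r (.f k i) = M J r (.f k i') := by
  cases r <;> rfl

theorem M_g_congr (J : ℕ) (r : RTag) (k c i i' : ℕ) : M J r (.g k c i) = M J r (.g k c i') := by
  cases r <;> rfl

theorem M_k_congr (J : ℕ) (r : RTag) (k c i i' : ℕ) : M J r (.k k c i) = M J r (.k k c i') := by
  cases r <;> rfl

theorem col_cs_one {J : ℕ} {r : RTag} {b : Bool} {i : ℕ} (h : M J r (.cs b i) = true) :
    rkR r = 0 ∨ rkR r = 2 ∨ rkR r = 4 := by
  cases r with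
  | rs b' i' => simp [M, Mrs] at h
  | f j i' => simp [M, Mf] at h
  | g j c i' => simp [M, Mg] at h
  | k j c i' => simp [M, Mk] at h
  | _ => simp [rkR]

theorem col_cs_zero {J : ℕ} {r : RTag} {b : Bool} {i : ℕ} (h : M J r (.cs b i) = false) :
    rkR r = 1 ∨ rkR r = 3 ∨ rkR r = 5 ∨ rkR r = 6 ∨ rkR r = 7 := by
  cases r with
  | rs b' i' => cases b' <;> simp [rkR]
  | pad i' => simp [M] at h
  | thin j κ t i' => simp [M, Mthin] at h
  | zs i' => simp [M, Mzs] at h
  | _ => simp [rkR]

theorem col_zs_one {J : ℕ} {r : RTag} {i : ℕ} (h : M J r (.zs i) = true) :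
    rkR r = 0 ∨ rkR r = 1 ∨ rkR r = 3 ∨ rkR r = 5 ∨ rkR r = 7 := by
  cases r with
  | rs b' i' => cases b' <;> simp [rkR]
  | thin j κ t i' => simp [M, Mthin] at h
  | zs i' => simp [M, Mzs] at h
  | g j c i' => simp [M, Mg] at h
  | _ => simp [rkR]

theorem col_zs_zero {J : ℕ} {r : RTag} {i : ℕ} (h : M J r (.zs i) = false) :
    rkR r = 2 ∨ rkR r = 4 ∨ rkR r = 6 := by
  cases r with
  | pad i' => simp [M] at h
  | rs b' i' => simp [M, Mrs] at h
  | f j i' => simp [M, Mf] at h
  | k j c i' => simp [M, Mk] at h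
  | _ => simp [rkR]

theorem col_f_one {J : ℕ} {r : RTag} {i a : ℕ} (h : M J r (.f i a) = true) :
    rkR r = 0 ∨ (∃ κ t ι, r = .thin i κ t ι) ∨ (∃ ι, r = .zs ι) ∨ (∃ c ι, r = .g i c ι) := by
  cases r with
  | pad i' => simp [rkR]
  | rs b' i' => simp [M, Mrs] at h
  | thin j κ t ι =>
    simp only [M, Mthin, decide_eq_true_eq] at h; subst h
    exact Or.inr (Or.inl ⟨κ, t, ι, rfl⟩)
  | zs ι => exact Or.inr (Or.inr (Or.inl ⟨ι, rfl⟩))
  | f j i' => simp [M, Mf] at h
  | g j c ι =>
    simp only [M, Mg, decide_eq_true_eq] at h; subst h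
    exact Or.inr (Or.inr (Or.inr ⟨c, ι, rfl⟩))
  | k j c i' => simp [M, Mk] at h

theorem col_g_one {J : ℕ} {r : RTag} {i c a : ℕ} (h : M J r (.g i c a) = true) :
    rkR r = 0 ∨ (∃ κ t ι, r = .thin i κ t ι ∧ (t / Wr J i) % 2 = c) ∨
      (∃ j ι, i = j + 1 ∧ r = .f j ι) ∨ (∃ ι, r = .k i c ι) := by
  cases r with
  | pad i' => simp [rkR]
  | rs b' i' => simp [M, Mrs] at h
  | thin j κ t ι =>
    simp only [M, Mthin, decide_eq_true_eq] at h; obtain ⟨rfl, h⟩ := h
    exact Or.inr (Or.inl ⟨κ, t, ι, rfl, h⟩)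
  | zs ι => simp [M, Mzs] at h
  | f j ι =>
    simp only [M, Mf, decide_eq_true_eq] at h; subst h
    exact Or.inr (Or.inr (Or.inl ⟨j, ι, rfl, rfl⟩))
  | g j c' ι => simp [M, Mg] at h
  | k j c' ι =>
    simp only [M, Mk, decide_eq_true_eq] at h; obtain ⟨rfl, rfl⟩ := h
    exact Or.inr (Or.inr (Or.inr ⟨ι, rfl⟩))

theorem col_k_one {J : ℕ} {r : RTag} {i c a : ℕ} (h : M J r (.k i c a) = true) :
    rkR r = 0 ∨ (∃ κ t ι, r = .thin i κ t ι ∧ (t / Wc J (i - 1)) % 2 = c) ∨
      (∃ ι, r = .zs ι) ∨ (∃ j ι, i = j + 1 ∧ r = .g j c ι) := by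
  cases r with
  | pad i' => simp [rkR]
  | rs b' i' => simp [M, Mrs] at h
  | thin j κ t ι =>
    simp only [M, Mthin, decide_eq_true_eq] at h; obtain ⟨rfl, h⟩ := h
    exact Or.inr (Or.inl ⟨κ, t, ι, rfl, h⟩)
  | zs ι => exact Or.inr (Or.inr (Or.inl ⟨ι, rfl⟩))
  | f j ι => simp [M, Mf] at h
  | g j c' ι =>
    simp only [M, Mg, decide_eq_true_eq] at h; obtain ⟨rfl, rfl⟩ := h
    exact Or.inr (Or.inr (Or.inr ⟨j, ι, rfl, rfl⟩))
  | k j c' ι => simp [M, Mk] at h

theorem col_w_one {J : ℕ} {r : RTag} {c a : ℕ} (h : M J r (.w c a) = true) :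
    rkR r = 0 ∨ (∃ b ι, r = .rs b ι) ∨ (∃ ι, r = .k J c ι) := by
  cases r with
  | pad i' => simp [rkR]
  | rs b' i' => exact Or.inr (Or.inl ⟨b', i', rfl⟩)
  | thin j κ t ι => simp [M, Mthin] at h
  | zs ι => simp [M, Mzs] at h
  | f j ι => simp [M, Mf] at h
  | g j c' ι => simp [M, Mg] at h
  | k j c' ι =>
    simp only [M, Mk, decide_eq_true_eq] at h; obtain ⟨rfl, rfl⟩ := h
    exact Or.inr (Or.inr ⟨ι, rfl⟩)

theorem col_anc_one {J : ℕ} {r : RTag} {a : ℕ} (h : M J r (.anc a) = true) :
    rkR r = 0 ∨ (∃ b ι, r = .rs b ι) ∨ (∃ κ t ι, r = .thin J κ t ι) ∨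
      (∃ j ι, j + 1 = J ∧ r = .f j ι) := by
  cases r with
  | pad i' => simp [rkR]
  | rs b' i' => exact Or.inr (Or.inl ⟨b', i', rfl⟩)
  | thin j κ t ι =>
    simp only [M, Mthin, decide_eq_true_eq] at h; subst h
    exact Or.inr (Or.inr (Or.inl ⟨κ, t, ι, rfl⟩))
  | zs ι => simp [M, Mzs] at h
  | f j ι =>
    simp only [M, Mf, decide_eq_true_eq] at h
    exact Or.inr (Or.inr (Or.inr ⟨j, ι, h, rfl⟩))
  | g j c' ι => simp [M, Mg] at h
  | k j c' ι => simp [M, Mk] at h

/-- Validity needed for the classification. -/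
def RowOK (J : ℕ) : RTag → Prop
  | .thin j _ t _ => j ≤ J ∧ (j = 0 → t = 0)
  | _ => True

/-- Validity needed for the classification. -/
def ColOK (J : ℕ) : CTag → Prop
  | .thin k _ _ => k < J
  | _ => True

theorem M_row_class' {J : ℕ} (c : CTag) {j t t' i i' : ℕ} {κ κ' : Bool}
    (hr : RowOK J (.thin j κ t i)) (hr' : RowOK J (.thin j κ' t' i'))
    (h : t / Wr J j = t' / Wr J j) :
    M J (.thin j κ t i) c = M J (.thin j κ' t' i') c := by
  by_cases hj : j = 0
  · have h1 := hr.2 hj
    have h2 := hr'.2 hj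
    subst h1 h2
    rfl
  · exact M_row_class J c (by omega) h hr.1

/-- **The classification**. -/
theorem classify {J : ℕ} {r1 x r3 w1 w2 : RTag} {s1 y s3 z1 z2 : CTag}
    (ok1 : RowOK J r1) (ok2 : RowOK J x) (ok3 : RowOK J r3) (ok4 : RowOK J w1) (ok5 : RowOK J w2)
    (ck1 : ColOK J s1) (ck2 : ColOK J y) (ck3 : ColOK J s3) (ck4 : ColOK J z1) (ck5 : ColOK J z2)
    (hR1 : rkR r1 ≤ rkR x) (hR2 : rkR x ≤ rkR r3) (hR3 : rkR r3 ≤ rkR w1) (hR4 : rkR w1 ≤ rkR w2)
    (hC1 : rkC s1 ≤ rkC y) (hC2 : rkC y ≤ rkC s3) (hC3 : rkC s3 ≤ rkC z1) (hC4 : rkC z1 ≤ rkC z2)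
    (a11 : M J r1 s1 = true) (a12 : M J r1 y = true) (a13 : M J r1 s3 = true) (a14 : M J r1 z1 = true)
    (a15 : M J r1 z2 = false)
    (a21 : M J x s1 = true) (a22 : M J x y = false) (a23 : M J x s3 = true) (a24 : M J x z1 = false)
    (a25 : M J x z2 = true)
    (a31 : M J r3 s1 = true) (a32 : M J r3 y = true) (a33 : M J r3 s3 = true) (a34 : M J r3 z1 = true)
    (a35 : M J r3 z2 = false)
    (a41 : M J w1 s1 = true) (a42 : M J w1 y = false) (a43 : M J w1 s3 = true) (a44 : M J w1 z1 = true)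
    (a45 : M J w1 z2 = true)
    (a51 : M J w2 s1 = false) (a52 : M J w2 y = true) (a53 : M J w2 s3 = false) (a54 : M J w2 z1 = true)
    (a55 : M J w2 z2 = true) :
    (∃ i κ1 t1 i1 κ3 t3 i3 κx tx ix κy u,
      r1 = .thin i κ1 t1 i1 ∧ r3 = .thin i κ3 t3 i3 ∧ x = .thin (i + 1) κx tx ix ∧
      y = .thin i κy u ∧ (tx / Wc J i) % 2 = (u / Wc J i) % 2) ∨
    (∃ j κx tx ix κ1 u1 κ3 u3 κy u,
      x = .thin (j + 1) κx tx ix ∧ s1 = .thin j κ1 u1 ∧ s3 = .thin j κ3 u3 ∧
      y = .thin (j + 1) κy u ∧ (tx / Wr J (j + 1)) % 2 = (u / Wr J (j + 1)) % 2) := by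
  -- non-padding lines
  have p1 := M_false_rk a15
  have p2 := M_false_rk a22
  have p3 := M_false_rk a35
  have p4 := M_false_rk a42
  have p5 := M_false_rk a51
  have p6 := M_false_rk a53
  have p7 := M_false_rk a24
  -- `y` and `s3` are not in the first `cs` block
  have hy2 : 2 ≤ rkC y := by
    by_contra hcon
    have h1 : rkC y = 1 := by omega
    have h2 : rkC s1 = 1 := by omega
    obtain ⟨i1, rfl⟩ := rkC_eq_one h1
    obtain ⟨i2, rfl⟩ := rkC_eq_one h2
    rw [M_cs_congr J x false false i2 i1] at a21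
    exact Bool.noConfusion (a22.symm.trans a21)
  -- `x` is not an `rs` row
  have hxrs : ∀ b i, x ≠ .rs b i := by
    rintro b i rfl
    have c1 := one_rs (c := s1) a21
    have c2 := zero_rs (c := y) a22
    have c3 := one_rs (c := s3) a23
    have c4 := zero_rs (c := z1) a24
    have c5 := one_rs (c := z2) a25
    omega
  -- `x` is not a `zs` row
  have hxzs : ∀ i, x ≠ .zs i := by
    rintro i rfl
    have c1 := one_zs (c := s1) a21
    have c2 := zero_zs (c := y) a22
    have c3 := one_zs (c := s3) a23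
    cases r3 with
    | pad i' => simp [M] at a35
    | rs b i' => cases b <;> simp [rkR] at hR2
    | thin j κ t i' => simp [rkR] at hR2
    | zs i' => exact Bool.noConfusion (a22.symm.trans a32)
    | f j i' =>
      have c6 := one_f (c := s1) a31
      omega
    | g j c i' =>
      have c6 := one_g (c := s1) a31
      have c7 := one_g (c := y) a32
      omega
    | k j c i' =>
      have c6 := one_k (c := s1) a31
      omega
  have hx1 : rkR x ≠ 1 := fun h => by
    obtain ⟨i, e⟩ := rkR_eq_one h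
    exact hxrs _ _ e
  have hx3 : rkR x ≠ 3 := fun h => by
    obtain ⟨i, e⟩ := rkR_eq_three h
    exact hxrs _ _ e
  have hx4 : rkR x ≠ 4 := fun h => by
    obtain ⟨i, e⟩ := rkR_eq_four h
    exact hxzs _ e
  cases z1 with
  | pad i => simp [rkC] at p7
  | cs b i =>
    cases b with
    | false => change rkC s3 ≤ 1 at hC3; omega
    | true =>
      have q1 := col_cs_one a14
      have q3 := col_cs_one a34
      have q4 := col_cs_one a44
      have q5 := col_cs_one a54
      have q2 := col_cs_zero a24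
      have e4 : rkR w1 = 4 := by omega
      have e5 : rkR w2 = 4 := by omega
      obtain ⟨_, rfl⟩ := rkR_eq_four e4
      obtain ⟨_, rfl⟩ := rkR_eq_four e5
      exact Bool.noConfusion (a42.symm.trans a52)
  | w c a =>
    change rkC s3 ≤ 3 at hC3
    rcases col_w_one a44 with h0 | ⟨b, ι, rfl⟩ | ⟨ι, rfl⟩
    · omega
    · have := zero_rs (c := y) a42
      omega
    · rcases col_w_one a54 with h0 | ⟨b, ι', rfl⟩ | ⟨ι', rfl⟩
      · omega
      · cases b <;> simp [rkR] at hR4
      · exact Bool.noConfusion (a42.symm.trans a52)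
  | anc a =>
    change rkC s3 ≤ 4 at hC3
    have hy4 : rkC y ≠ 4 := fun h => by
      obtain ⟨i, rfl⟩ := rkC_eq_four h
      rw [M_anc_congr J w1 i a] at a42
      exact Bool.noConfusion (a42.symm.trans a44)
    have hs4 : rkC s3 ≠ 4 := fun h => by
      obtain ⟨i, rfl⟩ := rkC_eq_four h
      rw [M_anc_congr J w2 i a] at a53
      exact Bool.noConfusion (a53.symm.trans a54)
    rcases col_anc_one a44 with h0 | ⟨b, ι, rfl⟩ | ⟨κ, t, ι, rfl⟩ | ⟨j, ι, hj, rfl⟩
    · omega
    · have := zero_rs (c := y) a42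
      omega
    · have h2 : rkC s3 = 2 ∨ rkC s3 = 3 := by omega
      rcases h2 with h2 | h2
      · obtain ⟨k, κ', u, rfl⟩ := rkC_eq_two h2
        have hk : k < J := ck3
        simp only [M, Mthin, decide_eq_true_eq, rel] at a43
        rcases a43 with ⟨h, _⟩ | ⟨_, h', _⟩
        · omega
        · exact (h' rfl).elim
      · obtain ⟨c', i, rfl⟩ := rkC_eq_three h2
        simp [M, Mthin] at a43
    · rcases col_anc_one a54 with h0 | ⟨b, ι', rfl⟩ | ⟨κ, t, ι', rfl⟩ | ⟨j', ι', hj', rfl⟩
      · omega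
      · cases b <;> simp [rkR] at hR4
      · simp [rkR] at hR4
      · obtain rfl : j' = j := by omega
        exact Bool.noConfusion (a42.symm.trans a52)
  | zs a =>
    change rkC s3 ≤ 6 at hC3
    change 6 ≤ rkC z2 at hC4
    have q2 := col_zs_zero a24
    have hx : rkR x = 2 ∨ rkR x = 6 := by omega
    have q4 := col_zs_one a44
    have q5 := col_zs_one a54
    rcases hx with hx | hx
    · -- `x` thin: the shape (B)
      obtain ⟨j, κx, tx, ix, rfl⟩ := rkR_eq_two hx
      have hz2 : rkC z2 = 6 ∨ rkC z2 = 7 ∨ rkC z2 = 8 ∨ rkC z2 = 9 := by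
        have := rkC_le z2
        omega
      rcases hz2 with hz | hz | hz | hz
      · obtain ⟨_, rfl⟩ := rkC_eq_six hz
        simp [M, Mthin] at a25
      · obtain ⟨_, _, rfl⟩ := rkC_eq_seven hz
        rcases col_f_one a45 with h | ⟨_, _, _, rfl⟩ | ⟨_, rfl⟩ | ⟨_, _, rfl⟩
        · omega
        · simp [rkR] at q4
        · simp [rkR] at q4
        · simp [rkR] at q4
      · obtain ⟨k2, c2, ι2, rfl⟩ := rkC_eq_eight hz
        simp only [M, Mthin, decide_eq_true_eq] at a25
        obtain ⟨rfl, hc2⟩ := a25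
        rcases col_g_one a45 with h | ⟨_, _, _, rfl, _⟩ | ⟨j1, ι1, hj1, rfl⟩ | ⟨ι1, rfl⟩
        · omega
        · simp [rkR] at q4
        · rcases col_g_one a55 with h | ⟨_, _, _, rfl, _⟩ | ⟨j2, ι4, hj2, rfl⟩ | ⟨ι4, rfl⟩
          · omega
          · simp [rkR] at q5
          · obtain rfl : j2 = j1 := by omega
            exact Bool.noConfusion (a42.symm.trans a52)
          · -- main branch
            subst hj1
            -- the first column
            have hs1k : ∃ κ1 u1, s1 = .thin j1 κ1 u1 := by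
              cases s1 with
              | pad i => simp [rkC] at p5
              | cs b i => simp [M, Mf] at a41
              | thin k1 κ1 u1 =>
                simp only [M, Mf, decide_eq_true_eq] at a41
                subst a41
                exact ⟨κ1, u1, rfl⟩
              | w c i => simp [M, Mf] at a41
              | anc i =>
                exfalso
                have c1 := one_k (c := y) a52
                change 4 ≤ rkC y at hC1
                have e1 : rkC y = 6 := by omega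
                have e2 : rkC s3 = 6 := by omega
                obtain ⟨_, rfl⟩ := rkC_eq_six e2
                simp [M, Mthin] at a23
              | zs i => simp [M, Mthin] at a21
              | f k i => simp [M, Mf] at a41
              | g k c i => change 8 ≤ rkC y at hC1; omega
              | k k c i => simp [M, Mf] at a41
            obtain ⟨κ1, u1, rfl⟩ := hs1k
            have hk1 : j1 < J := ck1
            have hrel1 := a21
            simp only [M, Mthin, decide_eq_true_eq, rel] at hrel1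
            have hne : j1 + 1 ≠ J := by
              rcases hrel1 with ⟨h, _⟩ | ⟨_, h, _⟩
              · omega
              · exact h
            have c3 := one_f (c := s3) a43
            have hs3 : rkC s3 = 2 ∨ rkC s3 = 4 ∨ rkC s3 = 6 := by omega
            have hs3k : ∃ κ3 u3, s3 = .thin j1 κ3 u3 := by
              rcases hs3 with h | h | h
              · obtain ⟨k3, κ3, u3, rfl⟩ := rkC_eq_two h
                simp only [M, Mf, decide_eq_true_eq] at a43
                subst a43
                exact ⟨κ3, u3, rfl⟩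
              · exfalso
                obtain ⟨_, rfl⟩ := rkC_eq_four h
                simp only [M, Mthin, decide_eq_true_eq] at a23
                exact hne a23
              · exfalso
                obtain ⟨_, rfl⟩ := rkC_eq_six h
                simp [M, Mthin] at a23
            obtain ⟨κ3, u3, rfl⟩ := hs3k
            have hy : rkC y = 2 := by
              change rkC y ≤ 2 at hC2
              omega
            obtain ⟨ky, κy, uy, rfl⟩ := rkC_eq_two hy
            simp only [M, Mk, decide_eq_true_eq] at a52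
            obtain ⟨rfl, hcy⟩ := a52
            exact Or.inr ⟨j1, κx, tx, ix, κ1, u1, κ3, u3, κy, uy, rfl, rfl, rfl, rfl, by rw [hc2, hcy]⟩
        · -- `w1 = k`, then `w2 = k`, the same row
          rcases col_g_one a55 with h | ⟨_, _, _, rfl, _⟩ | ⟨j2, ι4, hj2, rfl⟩ | ⟨ι4, rfl⟩
          · omega
          · simp [rkR] at q5
          · simp [rkR] at hR4
          · exact Bool.noConfusion (a42.symm.trans a52)
      · obtain ⟨_, _, _, rfl⟩ := rkC_eq_nine hz
        rcases col_k_one a45 with h | ⟨_, _, _, rfl, _⟩ | ⟨_, rfl⟩ | ⟨_, _, _, rfl⟩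
        · omega
        · simp [rkR] at q4
        · simp [rkR] at q4
        · simp [rkR] at q4
    · -- `x` a `g` row
      have q3 := col_zs_one a34
      have e3 : rkR r3 = 7 := by omega
      have e4 : rkR w1 = 7 := by omega
      have e5 : rkR w2 = 7 := by omega
      obtain ⟨j1, c1, ι1, rfl⟩ := rkR_eq_seven e4
      obtain ⟨j2, c2, ι2, rfl⟩ := rkR_eq_seven e5
      have c4 := one_k (c := z2) a45
      have hz : rkC z2 = 6 ∨ rkC z2 = 8 := by omega
      rcases hz with hz | hz
      · obtain ⟨b, rfl⟩ := rkC_eq_six hz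
        rw [M_zs_congr J r1 b a] at a15
        exact Bool.noConfusion (a15.symm.trans a14)
      · obtain ⟨k2, c', ι', rfl⟩ := rkC_eq_eight hz
        simp only [M, Mk, decide_eq_true_eq] at a45 a55
        obtain ⟨rfl, rfl⟩ := a45
        obtain ⟨h1, rfl⟩ := a55
        subst h1
        exact Bool.noConfusion (a42.symm.trans a52)
  | f i a =>
    change rkC s3 ≤ 7 at hC3
    change 7 ≤ rkC z2 at hC4
    have hz2 : rkC z2 = 7 ∨ rkC z2 = 8 ∨ rkC z2 = 9 := by
      have := rkC_le z2
      omega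
    have hxt : rkR x = 2 := by
      by_contra hcon
      have hx5 : 5 ≤ rkR x := by omega
      have key : ∀ w : RTag, 5 ≤ rkR w → M J w (.f i a) = true → ∃ c ι, w = .g i c ι := by
        intro w hw h
        rcases col_f_one h with h0 | ⟨_, _, _, rfl⟩ | ⟨_, rfl⟩ | ⟨c, ι, rfl⟩
        · omega
        · simp [rkR] at hw
        · simp [rkR] at hw
        · exact ⟨c, ι, rfl⟩
      obtain ⟨c1, ι1, rfl⟩ := key w1 (by omega) a44
      obtain ⟨c2, ι2, rfl⟩ := key w2 (by omega) a54
      rcases hz2 with hz | hz | hz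
      · obtain ⟨k2, a2, rfl⟩ := rkC_eq_seven hz
        simp only [M, Mg, decide_eq_true_eq] at a45
        subst a45
        rw [M_f_congr J r1 _ a2 a] at a15
        exact Bool.noConfusion (a15.symm.trans a14)
      · obtain ⟨_, _, _, rfl⟩ := rkC_eq_eight hz
        simp [M, Mg] at a45
      · obtain ⟨k2, c', a2, rfl⟩ := rkC_eq_nine hz
        simp only [M, Mg, decide_eq_true_eq] at a45 a55
        obtain ⟨_, rfl⟩ := a45
        obtain ⟨_, rfl⟩ := a55
        exact Bool.noConfusion (a42.symm.trans a52)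
    obtain ⟨j, κx, tx, ix, rfl⟩ := rkR_eq_two hxt
    have hij : i ≠ j := by
      intro e
      subst e
      simp [M, Mthin] at a24
    -- the rows with a one on `z1` have a limited form
    have hr1 : ∃ κ1 t1 ι1, r1 = .thin i κ1 t1 ι1 := by
      change rkR r1 ≤ 2 at hR1
      rcases col_f_one a14 with h0 | h | ⟨_, rfl⟩ | ⟨_, _, rfl⟩
      · omega
      · exact h
      · simp [rkR] at hR1
      · simp [rkR] at hR1
    obtain ⟨κ1, t1, ι1, rfl⟩ := hr1
    rcases hz2 with hz | hz | hz
    · obtain ⟨k2, a2, rfl⟩ := rkC_eq_seven hz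
      simp only [M, Mthin, decide_eq_true_eq] at a25
      subst a25
      have key : ∀ w : RTag, 1 ≤ rkR w → M J w (.f i a) = true → M J w (.f k2 a2) = true →
          ∃ ι, w = .zs ι := by
        intro w hw h h'
        rcases col_f_one h with h0 | ⟨_, _, _, rfl⟩ | ⟨ι, rfl⟩ | ⟨_, _, rfl⟩
        · omega
        · simp only [M, Mthin, decide_eq_true_eq] at h'
          exact absurd h'.symm hij
        · exact ⟨ι, rfl⟩
        · simp only [M, Mg, decide_eq_true_eq] at h'
          exact absurd h'.symm hij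
      obtain ⟨_, rfl⟩ := key w1 p4.1 a44 a45
      obtain ⟨_, rfl⟩ := key w2 p5.1 a54 a55
      exact Bool.noConfusion (a42.symm.trans a52)
    · obtain ⟨k2, c2, a2, rfl⟩ := rkC_eq_eight hz
      simp only [M, Mthin, decide_eq_true_eq] at a25
      obtain ⟨rfl, hc2⟩ := a25
      rcases col_f_one a44 with h0 | ⟨_, _, _, rfl⟩ | ⟨ι, rfl⟩ | ⟨_, _, rfl⟩
      · omega
      · simp only [M, Mthin, decide_eq_true_eq] at a45
        exact absurd a45.1.symm hij
      · simp [M, Mzs] at a45
      · simp [M, Mg] at a45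
    · obtain ⟨k2, c2, a2, rfl⟩ := rkC_eq_nine hz
      simp only [M, Mthin, decide_eq_true_eq] at a25
      obtain ⟨rfl, hc2⟩ := a25
      rcases col_f_one a44 with h0 | ⟨_, _, _, rfl⟩ | ⟨ι4, rfl⟩ | ⟨c4, ι4, rfl⟩
      · omega
      · simp only [M, Mthin, decide_eq_true_eq] at a45
        exact absurd a45.1.symm hij
      · rcases col_f_one a54 with h0 | ⟨_, _, _, rfl⟩ | ⟨ι5, rfl⟩ | ⟨c5, ι5, rfl⟩
        · omega
        · simp only [M, Mthin, decide_eq_true_eq] at a55
          exact absurd a55.1.symm hij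
        · exact Bool.noConfusion (a42.symm.trans a52)
        · -- the main branch
          simp only [M, Mg, decide_eq_true_eq] at a55
          obtain ⟨rfl, rfl⟩ := a55
          have hr3 : ∃ κ3 t3 ι3, r3 = .thin i κ3 t3 ι3 := by
            change rkR r3 ≤ 4 at hR3
            rcases col_f_one a34 with h0 | h | ⟨_, rfl⟩ | ⟨_, _, rfl⟩
            · omega
            · exact h
            · exact Bool.noConfusion (a42.symm.trans a32)
            · simp [rkR] at hR3
          obtain ⟨κ3, t3, ι3, rfl⟩ := hr3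
          have c1 := one_g (c := y) a52
          have hy : rkC y = 2 ∨ rkC y = 7 := by omega
          rcases hy with hy | hy
          · obtain ⟨ky, κy, uy, rfl⟩ := rkC_eq_two hy
            simp only [M, Mg, decide_eq_true_eq] at a52
            obtain ⟨rfl, hcy⟩ := a52
            simp only [Nat.add_sub_cancel] at hc2
            exact Or.inl ⟨ky, κ1, t1, ι1, κ3, t3, ι3, κx, tx, ix, κy, uy, rfl, rfl, rfl, rfl,
              by rw [hc2, hcy]⟩
          · obtain ⟨_, _, rfl⟩ := rkC_eq_seven hy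
            simp [M, Mzs] at a42
      · rcases col_f_one a54 with h0 | ⟨_, _, _, rfl⟩ | ⟨ι5, rfl⟩ | ⟨c5, ι5, rfl⟩
        · omega
        · simp only [M, Mthin, decide_eq_true_eq] at a55
          exact absurd a55.1.symm hij
        · simp [rkR] at hR4
        · simp only [M, Mg, decide_eq_true_eq] at a45 a55
          obtain ⟨_, rfl⟩ := a45
          obtain ⟨_, rfl⟩ := a55
          exact Bool.noConfusion (a42.symm.trans a52)
  | g i c a =>
    change rkC s3 ≤ 8 at hC3
    change 8 ≤ rkC z2 at hC4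
    have hr3 : ∃ κ3 t3 ι3, r3 = .thin i κ3 t3 ι3 ∧ (t3 / Wr J i) % 2 = c := by
      rcases col_g_one a34 with h | h | ⟨j, ι, hj, rfl⟩ | ⟨ι, rfl⟩
      · omega
      · exact h
      · exfalso
        rcases col_g_one a44 with h | ⟨_, _, _, rfl, _⟩ | ⟨j', ι', hj', rfl⟩ | ⟨ι', rfl⟩
        · omega
        · simp [rkR] at hR3
        · obtain rfl : j' = j := by omega
          exact Bool.noConfusion (a42.symm.trans a32)
        · rcases col_g_one a54 with h | ⟨_, _, _, rfl, _⟩ | ⟨j'', ι'', hj'', rfl⟩ | ⟨ι'', rfl⟩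
          · omega
          · simp [rkR] at hR4
          · simp [rkR] at hR4
          · exact Bool.noConfusion (a42.symm.trans a52)
      · exfalso
        rcases col_g_one a44 with h | ⟨_, _, _, rfl, _⟩ | ⟨j', ι', hj', rfl⟩ | ⟨ι', rfl⟩
        · omega
        · simp [rkR] at hR3
        · simp [rkR] at hR3
        · exact Bool.noConfusion (a42.symm.trans a32)
    obtain ⟨κ3, t3, ι3, rfl, hb3⟩ := hr3
    have hxr : rkR x = 2 := by
      change rkR x ≤ 2 at hR2
      omega
    obtain ⟨j, κx, tx, ix, rfl⟩ := rkR_eq_two hxr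
    have hz2 : rkC z2 = 8 ∨ rkC z2 = 9 := by
      have := rkC_le z2
      omega
    rcases hz2 with hz | hz
    · obtain ⟨i2, c2, a2, rfl⟩ := rkC_eq_eight hz
      have hne : ¬ (i2 = i ∧ c2 = c) := by
        rintro ⟨rfl, rfl⟩
        rw [M_g_congr J (.thin i2 κ3 t3 ι3) i2 c2 a2 a] at a35
        exact Bool.noConfusion (a35.symm.trans a34)
      have key : ∀ w : RTag, 1 ≤ rkR w → M J w (.g i c a) = true → M J w (.g i2 c2 a2) = true →
          ∃ j' ι, i = j' + 1 ∧ w = .f j' ι := by
        intro w hw h1 h2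
        rcases col_g_one h1 with h | ⟨κ, t, ι, rfl, hb⟩ | ⟨j', ι, hj', rfl⟩ | ⟨ι, rfl⟩
        · omega
        · simp only [M, Mthin, decide_eq_true_eq] at h2
          obtain ⟨rfl, h2⟩ := h2
          exact absurd ⟨rfl, by rw [← h2, hb]⟩ hne
        · exact ⟨j', ι, hj', rfl⟩
        · simp only [M, Mk, decide_eq_true_eq] at h2
          exact absurd ⟨h2.1, h2.2⟩ hne
      obtain ⟨j1, _, hj1, rfl⟩ := key w1 p4.1 a44 a45
      obtain ⟨j2, _, hj2, rfl⟩ := key w2 p5.1 a54 a55
      obtain rfl : j2 = j1 := by omega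
      exact Bool.noConfusion (a42.symm.trans a52)
    · obtain ⟨i2, c2, a2, rfl⟩ := rkC_eq_nine hz
      have key : ∀ w : RTag, 1 ≤ rkR w → M J w (.g i c a) = true → M J w (.k i2 c2 a2) = true →
          ∃ κ t ι, w = .thin i κ t ι ∧ i2 = i ∧ (t / Wc J (i - 1)) % 2 = c2 := by
        intro w hw h1 h2
        rcases col_g_one h1 with h | ⟨κ, t, ι, rfl, hb⟩ | ⟨j', ι, hj', rfl⟩ | ⟨ι, rfl⟩
        · omega
        · simp only [M, Mthin, decide_eq_true_eq] at h2
          obtain ⟨rfl, h2⟩ := h2
          exact ⟨κ, t, ι, rfl, rfl, h2⟩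
        · simp [M, Mf] at h2
        · simp [M, Mk] at h2
      obtain ⟨κ4, t4, ι4, rfl, rfl, hb4⟩ := key w1 p4.1 a44 a45
      obtain ⟨κ5, t5, ι5, rfl, _, hb5⟩ := key w2 p5.1 a54 a55
      simp only [M, Mthin, decide_eq_true_eq, decide_eq_false_iff_not] at a24 a25 a35
      obtain ⟨rfl, hcx⟩ := a25
      have hbx : ¬ (tx / Wr J i2) % 2 = c := fun h => a24 ⟨rfl, h⟩
      have hb3' : ¬ (t3 / Wc J (i2 - 1)) % 2 = c2 := fun h => a35 ⟨trivial, h⟩
      cases s1 with
      | pad i' => simp [rkC] at p5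
      | cs b i' => simp [M, Mthin] at a51
      | thin k κ' u =>
        simp only [M, Mthin, decide_eq_true_eq, rel] at a21 a31
        rcases a21 with ⟨e1, h1⟩ | ⟨e1, _, h1⟩ <;> rcases a31 with ⟨e2, h2⟩ | ⟨e2, _, h2⟩
        · exact (hbx (by rw [← h1, h2, hb3])).elim
        · omega
        · omega
        · subst e1
          simp only [Nat.add_sub_cancel] at hcx hb3'
          exact (hb3' (by rw [h2, ← h1, hcx])).elim
      | w c' i' => simp [M, Mthin] at a21
      | anc i' =>
        simp only [M, Mthin, decide_eq_true_eq, decide_eq_false_iff_not] at a21 a51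
        exact (a51 a21).elim
      | zs i' => simp [M, Mthin] at a21
      | f k i' =>
        simp only [M, Mthin, decide_eq_true_eq, decide_eq_false_iff_not] at a21 a51
        exact (a51 a21).elim
      | g k c3 i' =>
        simp only [M, Mthin, decide_eq_true_eq] at a21 a31
        exact (hbx (by rw [a21.2, ← a31.2, hb3])).elim
      | k k c3 i' =>
        change 9 ≤ rkC y at hC1
        omega
  | k i c a =>
    change 9 ≤ rkC z2 at hC4
    have hz : rkC z2 = 9 := le_antisymm (rkC_le z2) hC4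
    obtain ⟨i2, c2, a2, rfl⟩ := rkC_eq_nine hz
    have hne : ¬ (i2 = i ∧ c2 = c) := by
      rintro ⟨rfl, rfl⟩
      rw [M_k_congr J r1 i2 c2 a2 a] at a15
      exact Bool.noConfusion (a15.symm.trans a14)
    have key : ∀ w : RTag, 1 ≤ rkR w → M J w (.k i c a) = true → M J w (.k i2 c2 a2) = true →
        ∃ ι, w = .zs ι := by
      intro w hw h1 h2
      rcases col_k_one h1 with h | ⟨κ, t, ι, rfl, hb⟩ | ⟨ι, rfl⟩ | ⟨j, ι, hj, rfl⟩
      · omega
      · simp only [M, Mthin, decide_eq_true_eq] at h2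
        obtain ⟨rfl, h2⟩ := h2
        exact absurd ⟨rfl, by rw [← h2, hb]⟩ hne
      · exact ⟨ι, rfl⟩
      · simp only [M, Mg, decide_eq_true_eq] at h2
        exact absurd ⟨by omega, h2.2⟩ hne
    obtain ⟨_, rfl⟩ := key w1 p4.1 a44 a45
    obtain ⟨_, rfl⟩ := key w2 p5.1 a54 a55
    exact Bool.noConfusion (a42.symm.trans a52)
  | thin k κ u =>
    have hkJ : k < J := ck4
    change rkC s3 ≤ 2 at hC3
    have hy : rkC y = 2 := by omega
    have hs : rkC s3 = 2 := by omega
    obtain ⟨ky, κy, uy, rfl⟩ := rkC_eq_two hy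
    obtain ⟨k3, κ3, u3, rfl⟩ := rkC_eq_two hs
    have hk3J : k3 < J := ck3
    have hw1 : 5 ≤ rkR w1 := by
      cases w1 with
      | pad i => simp [rkR] at p4
      | rs b i => simp [M, Mrs] at a42
      | zs i => simp [M, Mzs] at a44
      | f j i => simp [rkR]
      | g j c i => simp [rkR]
      | k j c i => simp [rkR]
      | thin j1 κ1 t1 ι1 =>
        exfalso
        change rkR r3 ≤ 2 at hR3
        have e : rkR r3 = 2 := by omega
        obtain ⟨j3, κ3', t3, ι3, rfl⟩ := rkR_eq_two e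
        have r1' := a33
        have r2' := a34
        have r3' := a43
        have r4' := a44
        simp only [M, Mthin, decide_eq_true_eq] at r1' r2' r3' r4'
        rcases no_C4 J r1' r2' r3' r4' hk3J hkJ with ⟨rfl, h⟩ | ⟨rfl, h⟩
        · exact Bool.noConfusion
            ((a42.symm.trans (M_row_class' _ ok4 ok3 h.symm)).trans a32)
        · rw [M_col_class J w2 hk3J h (κ' := κ)] at a53
          exact Bool.noConfusion (a53.symm.trans a54)
    have hw1' : rkR w1 = 5 ∨ rkR w1 = 6 ∨ rkR w1 = 7 := by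
      have := rkR_le w1
      omega
    have hw2' : rkR w2 = 5 ∨ rkR w2 = 6 ∨ rkR w2 = 7 := by
      have := rkR_le w2
      omega
    -- the two levels
    have lev2 : ky = k := by
      rcases hw2' with h | h | h
      · obtain ⟨_, _, rfl⟩ := rkR_eq_five h
        simp only [M, Mf, decide_eq_true_eq] at a52 a54
        omega
      · obtain ⟨_, _, _, rfl⟩ := rkR_eq_six h
        simp only [M, Mg, decide_eq_true_eq] at a52 a54
        omega
      · obtain ⟨_, _, _, rfl⟩ := rkR_eq_seven h
        simp only [M, Mk, decide_eq_true_eq] at a52 a54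
        omega
    subst lev2
    have lev3 : k3 = ky := by
      rcases hw1' with h | h | h
      · obtain ⟨_, _, rfl⟩ := rkR_eq_five h
        simp only [M, Mf, decide_eq_true_eq] at a43 a44
        omega
      · obtain ⟨_, _, _, rfl⟩ := rkR_eq_six h
        simp only [M, Mg, decide_eq_true_eq] at a43 a44
        omega
      · obtain ⟨_, _, _, rfl⟩ := rkR_eq_seven h
        simp only [M, Mk, decide_eq_true_eq] at a43 a44
        omega
    subst lev3
    rcases hw1' with h1 | h1 | h1
    · obtain ⟨j1, _, rfl⟩ := rkR_eq_five h1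
      simp only [M, Mf, decide_eq_true_eq, decide_eq_false_iff_not] at a42 a44
      exact (a42 a44).elim
    · obtain ⟨j1, c1, ι1, rfl⟩ := rkR_eq_six h1
      rcases hw2' with h2 | h2 | h2
      · rw [h2] at hR4
        simp [rkR] at hR4
      · obtain ⟨j2, c2, ι2, rfl⟩ := rkR_eq_six h2
        have e1 := a44
        have e2 := a54
        simp only [M, Mg, decide_eq_true_eq] at e1 e2
        obtain ⟨rfl, rfl⟩ := e1
        obtain ⟨rfl, rfl⟩ := e2
        exact Bool.noConfusion (a42.symm.trans a52)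
      · -- the only delicate case
        obtain ⟨j2, c2, ι2, rfl⟩ := rkR_eq_seven h2
        have c3 := one_g (c := z2) a45
        have c4 := one_k (c := z2) a55
        have hz : rkC z2 = 2 := by omega
        obtain ⟨k5, κ5, u5, rfl⟩ := rkC_eq_two hz
        simp only [M, Mg, Mk, decide_eq_true_eq, decide_eq_false_iff_not] at a42 a43 a44 a45 a52 a53 a54
        obtain ⟨rfl, hc1⟩ := a43
        obtain ⟨rfl, hc2⟩ := a52
        have hy1 : ¬ (uy / Wc J k3) % 2 = c1 := fun h => a42 ⟨rfl, h⟩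
        have hy2' : ¬ (u3 / Wr J k3) % 2 = c2 := fun h => a53 ⟨rfl, h⟩
        obtain ⟨rfl, _⟩ := a45
        cases r3 with
        | pad i' => simp [M] at a35
        | rs b i' => simp [M, Mrs] at a35
        | thin j3 κ' t3 ι3 =>
          simp only [M, Mthin, decide_eq_true_eq, rel] at a32 a33
          rcases a32 with ⟨e1, h1⟩ | ⟨e1, _, h1⟩ <;> rcases a33 with ⟨e2, h2⟩ | ⟨e2, _, h2⟩
          · subst e1
            exact (hy2' (by rw [h2, ← h1, hc2])).elim
          · omega
          · omega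
          · exact (hy1 (by rw [← h1, h2, hc1])).elim
        | zs i' => simp [M, Mzs] at a32
        | f j i' =>
          simp only [M, Mf, decide_eq_true_eq, decide_eq_false_iff_not] at a32 a35
          exact (a35 a32).elim
        | g j c' i' =>
          simp only [M, Mg, decide_eq_true_eq] at a32 a33
          obtain ⟨rfl, h32⟩ := a32
          exact (hy1 (by rw [h32, ← a33.2, hc1])).elim
        | k j c' i' => simp [rkR] at hR3
    · obtain ⟨j1, c1, ι1, rfl⟩ := rkR_eq_seven h1
      rcases hw2' with h2 | h2 | h2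
      · rw [h2] at hR4
        simp [rkR] at hR4
      · rw [h2] at hR4
        simp [rkR] at hR4
      · obtain ⟨j2, c2, ι2, rfl⟩ := rkR_eq_seven h2
        have e1 := a44
        have e2 := a54
        simp only [M, Mk, decide_eq_true_eq] at e1 e2
        obtain ⟨rfl, rfl⟩ := e1
        obtain ⟨rfl, rfl⟩ := e2
        exact Bool.noConfusion (a42.symm.trans a52)

end Crest.Agent.Lib.ZigZagB
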