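/- Row 47 (S0066): the line sets and the order on tags. -/
import Crest.Agent.Lib.ZigZagB.Defs

set_option autoImplicit false

namespace Crest.Agent.Lib.ZigZagB

open Finset

/-- number of leaves -/
def LL (J : ℕ) : ℕ := 2 ^ (2 * J - 1)

/-- The non-padding row tags: `D` is the size of a dummy block. -/
def ValidR (J D : ℕ) : RTag → Prop
  | .pad _ => False
  | .rs _ i => i < D
  | .thin j κ t i => (j = 0 ∧ t = 0 ∧ i < D) ∨ (1 ≤ j ∧ j ≤ J ∧ t < LL J ∧ i = 0 ∧ (j = J → κ = false))
  | .zs i => i < D
  | .f j i => j < J ∧ i < D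
  | .g j c i => j < J ∧ c < 2 ∧ i < D
  | .k j c i => 1 ≤ j ∧ j ≤ J ∧ c < 2 ∧ i < D

/-- The non-padding column tags. -/
def ValidC (J D : ℕ) : CTag → Prop
  | .pad _ => False
  | .cs _ i => i < D
  | .thin j _ t => j < J ∧ t < LL J
  | .w c i => c < 2 ∧ i < D
  | .anc i => i < D
  | .zs i => i < D
  | .f j i => j < J ∧ i < D
  | .g j c i => 1 ≤ j ∧ j ≤ J ∧ c < 2 ∧ i < D
  | .k j c i => 1 ≤ j ∧ j ≤ J ∧ c < 2 ∧ i < D

/-- Finset of non-padding row tags. -/
noncomputable def rowOthers (J D : ℕ) : Finset RTag :=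
  ((univ : Finset Bool) ×ˢ range D).image (fun p => RTag.rs p.1 p.2)
  ∪ ((univ : Finset Bool) ×ˢ range D).image (fun p => RTag.thin 0 p.1 0 p.2)
  ∪ ((Icc 1 J ×ˢ (univ : Finset Bool) ×ˢ range (LL J)).filter
      (fun p => p.1 = J → p.2.1 = false)).image (fun p => RTag.thin p.1 p.2.1 p.2.2 0)
  ∪ (range D).image RTag.zs
  ∪ (range J ×ˢ range D).image (fun p => RTag.f p.1 p.2)
  ∪ (range J ×ˢ range 2 ×ˢ range D).image (fun p => RTag.g p.1 p.2.1 p.2.2)
  ∪ (Icc 1 J ×ˢ range 2 ×ˢ range D).image (fun p => RTag.k p.1 p.2.1 p.2.2)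

/-- Finset of non-padding column tags. -/
noncomputable def colOthers (J D : ℕ) : Finset CTag :=
  ((univ : Finset Bool) ×ˢ range D).image (fun p => CTag.cs p.1 p.2)
  ∪ (range J ×ˢ (univ : Finset Bool) ×ˢ range (LL J)).image (fun p => CTag.thin p.1 p.2.1 p.2.2)
  ∪ (range 2 ×ˢ range D).image (fun p => CTag.w p.1 p.2)
  ∪ (range D).image CTag.anc
  ∪ (range D).image CTag.zs
  ∪ (range J ×ˢ range D).image (fun p => CTag.f p.1 p.2)
  ∪ (Icc 1 J ×ˢ range 2 ×ˢ range D).image (fun p => CTag.g p.1 p.2.1 p.2.2)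
  ∪ (Icc 1 J ×ˢ range 2 ×ˢ range D).image (fun p => CTag.k p.1 p.2.1 p.2.2)

theorem mem_rowOthers {J D : ℕ} {τ : RTag} : τ ∈ rowOthers J D ↔ ValidR J D τ := by
  cases τ with
  | pad i => simp [rowOthers, ValidR]
  | rs b i => simp [rowOthers, ValidR]
  | thin j κ t i =>
    simp only [rowOthers, ValidR, mem_union, mem_image, mem_product, mem_univ, true_and, mem_range,
      mem_filter, mem_Icc, RTag.thin.injEq, Prod.exists, reduceCtorEq, false_and, exists_false, or_false,
      false_or, and_false]
    constructor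
    · rintro (⟨a, b, hb, rfl, rfl, rfl, rfl⟩ | ⟨a, b, c, ⟨⟨h1, h2⟩, h3⟩, h4⟩)
      · exact Or.inl ⟨rfl, rfl, hb⟩
      · obtain ⟨rfl, rfl, rfl, rfl⟩ := h4
        exact Or.inr ⟨h1.1, h1.2, h2, rfl, h3⟩
    · rintro (⟨rfl, rfl, h⟩ | ⟨h1, h2, h3, rfl, h5⟩)
      · exact Or.inl ⟨κ, i, h, rfl, rfl, rfl, rfl⟩
      · exact Or.inr ⟨j, κ, t, ⟨⟨⟨h1, h2⟩, h3⟩, h5⟩, rfl, rfl, rfl, rfl⟩
  | zs i => simp [rowOthers, ValidR]
  | f j i => simp [rowOthers, ValidR]
  | g j c i => simp [rowOthers, ValidR, and_assoc]
  | k j c i => simp [rowOthers, ValidR, and_assoc]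

theorem mem_colOthers {J D : ℕ} {τ : CTag} : τ ∈ colOthers J D ↔ ValidC J D τ := by
  cases τ <;> simp [colOthers, ValidC, and_assoc]

/-- The row tags, with `P` padding rows. -/
noncomputable def rowSet (J D P : ℕ) : Finset RTag := rowOthers J D ∪ (range P).image RTag.pad
/-- The column tags, with `P` padding columns. -/
noncomputable def colSet (J D P : ℕ) : Finset CTag := colOthers J D ∪ (range P).image CTag.pad

theorem card_rowOthers_le (J D : ℕ) : (rowOthers J D).card ≤ (5 + 5 * J) * D + 2 * J * LL J := by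
  unfold rowOthers
  have a1 : (((univ : Finset Bool) ×ˢ range D).image (fun p => RTag.rs p.1 p.2)).card ≤ 2 * D := by
    refine card_image_le.trans ?_
    simp
  have a2 : (((univ : Finset Bool) ×ˢ range D).image (fun p => RTag.thin 0 p.1 0 p.2)).card ≤ 2 * D := by
    refine card_image_le.trans ?_
    simp
  have a3 : (((Icc 1 J ×ˢ (univ : Finset Bool) ×ˢ range (LL J)).filter
      (fun p => p.1 = J → p.2.1 = false)).image (fun p => RTag.thin p.1 p.2.1 p.2.2 0)).card ≤ 2 * J * LL J := by
    refine card_image_le.trans ((card_filter_le _ _).trans ?_)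
    simp
    exact le_of_eq (by ring)
  have a4 : ((range D).image RTag.zs).card ≤ D := by
    refine card_image_le.trans ?_
    simp
  have a5 : ((range J ×ˢ range D).image (fun p => RTag.f p.1 p.2)).card ≤ J * D := by
    refine card_image_le.trans ?_
    simp
  have a6 : ((range J ×ˢ range 2 ×ˢ range D).image (fun p => RTag.g p.1 p.2.1 p.2.2)).card ≤ 2 * J * D := by
    refine card_image_le.trans ?_
    simp
    exact le_of_eq (by ring)
  have a7 : ((Icc 1 J ×ˢ range 2 ×ˢ range D).image (fun p => RTag.k p.1 p.2.1 p.2.2)).card ≤ 2 * J * D := by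
    refine card_image_le.trans ?_
    simp
    exact le_of_eq (by ring)
  refine (card_union_le _ _).trans ?_
  refine (Nat.add_le_add_right (card_union_le _ _) _).trans ?_
  refine (Nat.add_le_add_right (Nat.add_le_add_right (card_union_le _ _) _) _).trans ?_
  refine (Nat.add_le_add_right (Nat.add_le_add_right (Nat.add_le_add_right (card_union_le _ _) _) _) _).trans ?_
  refine (Nat.add_le_add_right (Nat.add_le_add_right (Nat.add_le_add_right (Nat.add_le_add_right (card_union_le _ _) _) _) _) _).trans ?_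
  refine (Nat.add_le_add_right (Nat.add_le_add_right (Nat.add_le_add_right (Nat.add_le_add_right (Nat.add_le_add_right (card_union_le _ _) _) _) _) _) _).trans ?_
  have e : (5 + 5 * J) * D + 2 * J * LL J = 2 * D + 2 * D + 2 * J * LL J + D + J * D + 2 * J * D + 2 * J * D := by ring
  rw [e]
  gcongr

theorem card_colOthers_le (J D : ℕ) : (colOthers J D).card ≤ (6 + 5 * J) * D + 2 * J * LL J := by
  unfold colOthers
  have a1 : (((univ : Finset Bool) ×ˢ range D).image (fun p => CTag.cs p.1 p.2)).card ≤ 2 * D := by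
    refine card_image_le.trans ?_
    simp
  have a2 : ((range J ×ˢ (univ : Finset Bool) ×ˢ range (LL J)).image (fun p => CTag.thin p.1 p.2.1 p.2.2)).card ≤ 2 * J * LL J := by
    refine card_image_le.trans ?_
    simp
    exact le_of_eq (by ring)
  have a3 : ((range 2 ×ˢ range D).image (fun p => CTag.w p.1 p.2)).card ≤ 2 * D := by
    refine card_image_le.trans ?_
    simp
  have a4 : ((range D).image CTag.anc).card ≤ D := by
    refine card_image_le.trans ?_
    simp
  have a4' : ((range D).image CTag.zs).card ≤ D := by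
    refine card_image_le.trans ?_
    simp
  have a5 : ((range J ×ˢ range D).image (fun p => CTag.f p.1 p.2)).card ≤ J * D := by
    refine card_image_le.trans ?_
    simp
  have a6 : ((Icc 1 J ×ˢ range 2 ×ˢ range D).image (fun p => CTag.g p.1 p.2.1 p.2.2)).card ≤ 2 * J * D := by
    refine card_image_le.trans ?_
    simp
    exact le_of_eq (by ring)
  have a7 : ((Icc 1 J ×ˢ range 2 ×ˢ range D).image (fun p => CTag.k p.1 p.2.1 p.2.2)).card ≤ 2 * J * D := by
    refine card_image_le.trans ?_
    simp
    exact le_of_eq (by ring)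
  refine (card_union_le _ _).trans ?_
  refine (Nat.add_le_add_right (card_union_le _ _) _).trans ?_
  refine (Nat.add_le_add_right (Nat.add_le_add_right (card_union_le _ _) _) _).trans ?_
  refine (Nat.add_le_add_right (Nat.add_le_add_right (Nat.add_le_add_right (card_union_le _ _) _) _) _).trans ?_
  refine (Nat.add_le_add_right (Nat.add_le_add_right (Nat.add_le_add_right (Nat.add_le_add_right (card_union_le _ _) _) _) _) _).trans ?_
  refine (Nat.add_le_add_right (Nat.add_le_add_right (Nat.add_le_add_right (Nat.add_le_add_right (Nat.add_le_add_right (card_union_le _ _) _) _) _) _) _).trans ?_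
  refine (Nat.add_le_add_right (Nat.add_le_add_right (Nat.add_le_add_right (Nat.add_le_add_right (Nat.add_le_add_right (Nat.add_le_add_right (card_union_le _ _) _) _) _) _) _) _).trans ?_
  have e : (6 + 5 * J) * D + 2 * J * LL J = 2 * D + 2 * J * LL J + 2 * D + D + D + J * D + 2 * J * D + 2 * J * D := by ring
  rw [e]
  gcongr

theorem card_rowSet {J D P : ℕ} : (rowSet J D P).card = (rowOthers J D).card + P := by
  unfold rowSet
  rw [card_union_of_disjoint]
  · rw [card_image_of_injective _ (fun a b h => RTag.pad.inj h), card_range]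
  · rw [disjoint_left]
    intro τ h1 h2
    rw [mem_rowOthers] at h1
    rw [mem_image] at h2
    obtain ⟨i, _, rfl⟩ := h2
    exact h1

theorem card_colSet {J D P : ℕ} : (colSet J D P).card = (colOthers J D).card + P := by
  unfold colSet
  rw [card_union_of_disjoint]
  · rw [card_image_of_injective _ (fun a b h => CTag.pad.inj h), card_range]
  · rw [disjoint_left]
    intro τ h1 h2
    rw [mem_colOthers] at h1
    rw [mem_image] at h2
    obtain ⟨i, _, rfl⟩ := h2
    exact h1

/-! ### Order facts -/

theorem rkey_rk_mono {J : ℕ} {τ σ : RTag} (h : rkey J τ < rkey J σ) : rkR τ ≤ rkR σ := by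
  cases τ with
  | rs b i => cases b <;> cases σ <;> (try (cases ‹Bool›)) <;>
      simp_all [rkey, rkR, mkKey_lt_iff]
  | _ => cases σ <;> (try (cases ‹Bool›)) <;> simp_all [rkey, rkR, mkKey_lt_iff]

theorem rkey_of_rk_lt {J : ℕ} {τ σ : RTag} (h : rkR τ < rkR σ) : rkey J τ < rkey J σ := by
  cases τ with
  | rs b i => cases b <;> cases σ <;> (try (cases ‹Bool›)) <;>
      simp_all [rkey, rkR, mkKey_lt_iff]
  | _ => cases σ <;> (try (cases ‹Bool›)) <;> simp_all [rkey, rkR, mkKey_lt_iff]

theorem ckey_rk_mono {J : ℕ} {τ σ : CTag} (h : ckey J τ < ckey J σ) : rkC τ ≤ rkC σ := by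
  cases τ with
  | cs b i => cases b <;> cases σ <;> (try (cases ‹Bool›)) <;>
      simp_all [ckey, rkC, mkKey_lt_iff]
  | _ => cases σ <;> (try (cases ‹Bool›)) <;> simp_all [ckey, rkC, mkKey_lt_iff]

theorem ckey_of_rk_lt {J : ℕ} {τ σ : CTag} (h : rkC τ < rkC σ) : ckey J τ < ckey J σ := by
  cases τ with
  | cs b i => cases b <;> cases σ <;> (try (cases ‹Bool›)) <;>
      simp_all [ckey, rkC, mkKey_lt_iff]
  | _ => cases σ <;> (try (cases ‹Bool›)) <;> simp_all [ckey, rkC, mkKey_lt_iff]

theorem rkey_injective (J : ℕ) : Function.Injective (rkey J) := by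
  intro τ σ h
  cases τ with
  | rs b i =>
    cases b <;> cases σ <;> (try (cases ‹Bool›)) <;> simp only [rkey] at h <;>
      (have h' := mkKey_inj h; clear h; simp at h'; try (simp [h']))
  | thin j κ t i =>
    cases σ with
    | thin j' κ' t' i' =>
      simp only [rkey, tk] at h
      have h' := mkKey_inj h
      clear h
      cases κ <;> cases κ' <;> simp at h' <;> simp [h']
    | rs b i' => cases b <;> simp only [rkey] at h <;> (have h' := mkKey_inj h; clear h; simp at h')
    | _ => simp only [rkey] at h; (have h' := mkKey_inj h; clear h; simp at h')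
  | _ =>
    cases σ with
    | rs b i' => cases b <;> simp only [rkey] at h <;> (have h' := mkKey_inj h; clear h; simp at h')
    | _ => simp only [rkey] at h; (have h' := mkKey_inj h; clear h; simp at h'; try (simp [h']))

theorem ckey_injective (J : ℕ) : Function.Injective (ckey J) := by
  intro τ σ h
  cases τ with
  | cs b i =>
    cases b <;> cases σ <;> (try (cases ‹Bool›)) <;> simp only [ckey] at h <;>
      (have h' := mkKey_inj h; clear h; simp at h'; try (simp [h']))
  | thin j κ t =>
    cases σ with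
    | thin j' κ' t' =>
      simp only [ckey, tk] at h
      have h' := mkKey_inj h
      clear h
      cases κ <;> cases κ' <;> simp at h' <;> simp [h']
    | cs b i' => cases b <;> simp only [ckey] at h <;> (have h' := mkKey_inj h; clear h; simp at h')
    | _ => simp only [ckey] at h; (have h' := mkKey_inj h; clear h; simp at h')
  | _ =>
    cases σ with
    | cs b i' => cases b <;> simp only [ckey] at h <;> (have h' := mkKey_inj h; clear h; simp at h')
    | _ => simp only [ckey] at h; (have h' := mkKey_inj h; clear h; simp at h'; try (simp [h']))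

end Crest.Agent.Lib.ZigZagB
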