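/- Row 47 (S0066): the positive direction of nesting: order of the thin lines on one leaf. -/
import Crest.Agent.Lib.ZigZagB.Sets

set_option autoImplicit false

namespace Crest.Agent.Lib.ZigZagB

/-- lexicographic order on triples. -/
def TkLt (x y : ℕ × ℕ × ℕ) : Prop :=
  x.1 < y.1 ∨ x.1 = y.1 ∧ (x.2.1 < y.2.1 ∨ x.2.1 = y.2.1 ∧ x.2.2 < y.2.2)

theorem floor_le_floor {W W' t : ℕ} (hd : W' ∣ W) (hW' : 0 < W') (hW : 0 < W) :
    t / W * W ≤ t / W' * W' := by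
  obtain ⟨q, rfl⟩ := hd
  have h1 : t / (W' * q) * (W' * q) ≤ t := Nat.div_mul_le_self t _
  have h2 : t / (W' * q) * q ≤ t / W' := by
    rw [Nat.le_div_iff_mul_le hW']
    calc t / (W' * q) * q * W' = t / (W' * q) * (W' * q) := by ring
      _ ≤ t := h1
  calc t / (W' * q) * (W' * q) = t / (W' * q) * q * W' := by ring
    _ ≤ t / W' * W' := Nat.mul_le_mul_right _ h2

theorem ceil_le_ceil {W W' t : ℕ} (hd : W' ∣ W) (hW' : 0 < W') (hW : 0 < W) :
    (t / W' + 1) * W' ≤ (t / W + 1) * W := by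
  obtain ⟨q, rfl⟩ := hd
  have h1 : t < (t / (W' * q) + 1) * (W' * q) := by
    have := Nat.lt_div_mul_add (a := t) hW
    calc t < t / (W' * q) * (W' * q) + (W' * q) := this
      _ = _ := by ring
  have h2 : t / W' < (t / (W' * q) + 1) * q := by
    rw [Nat.div_lt_iff_lt_mul hW']
    calc t < (t / (W' * q) + 1) * (W' * q) := h1
      _ = _ := by ring
  calc (t / W' + 1) * W' ≤ (t / (W' * q) + 1) * q * W' := Nat.mul_le_mul_right _ h2
    _ = _ := by ring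

theorem le_floor_lt_ceil (W t : ℕ) (hW : 0 < W) : t / W * W ≤ t ∧ t < (t / W + 1) * W := by
  refine ⟨Nat.div_mul_le_self t W, ?_⟩
  have := Nat.lt_div_mul_add (a := t) hW
  calc t < t / W * W + W := this
    _ = _ := by ring

theorem tk_nest_O (W : ℕ → ℕ) (J l l' t : ℕ) (κ : Bool) (hd : W l' ∣ W l) (h0 : 0 < W l)
    (h0' : 0 < W l') (hl : l < l') : TkLt (tk W J l false t) (tk W J l' κ t) := by
  have h1 := floor_le_floor (t := t) hd h0' h0
  have h2 := le_floor_lt_ceil (W l) t h0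
  have h3 := le_floor_lt_ceil (W l') t h0'
  cases κ
  · simp only [tk, TkLt, Bool.false_eq_true, if_false]
    rcases h1.lt_or_eq with h | h
    · exact Or.inl h
    · exact Or.inr ⟨h, Or.inr ⟨trivial, hl⟩⟩
  · simp only [tk, TkLt, Bool.false_eq_true, if_false, if_true]
    exact Or.inl (by omega)

theorem tk_nest_C (W : ℕ → ℕ) (J l l' t : ℕ) (κ : Bool) (hd : W l' ∣ W l) (h0 : 0 < W l)
    (h0' : 0 < W l') (hl : l < l') (hl' : l' ≤ J) : TkLt (tk W J l' κ t) (tk W J l true t) := by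
  have h1 := ceil_le_ceil (t := t) hd h0' h0
  have h2 := le_floor_lt_ceil (W l) t h0
  have h3 := le_floor_lt_ceil (W l') t h0'
  cases κ
  · simp only [tk, TkLt, Bool.false_eq_true, if_false, if_true]
    exact Or.inl (by omega)
  · simp only [tk, TkLt, if_true]
    rcases h1.lt_or_eq with h | h
    · exact Or.inl h
    · exact Or.inr ⟨h, Or.inr ⟨trivial, by omega⟩⟩

theorem Wr_dvd (J l l' : ℕ) (hl : l < l') : Wr J l' ∣ Wr J l := by
  unfold Wr
  exact pow_dvd_pow 2 (by omega)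

theorem Wc_dvd (J l l' : ℕ) (hl : l < l') : Wc J l' ∣ Wc J l := by
  unfold Wc
  exact pow_dvd_pow 2 (by omega)

theorem Wr_pos' (J j : ℕ) : 0 < Wr J j := by unfold Wr; positivity
theorem Wc_pos' (J j : ℕ) : 0 < Wc J j := by unfold Wc; positivity

theorem rkey_thin_lt {J j j' t t' i i' : ℕ} {κ κ' : Bool}
    (h : TkLt (tk (Wr J) J j κ t) (tk (Wr J) J j' κ' t')) :
    rkey J (.thin j κ t i) < rkey J (.thin j' κ' t' i') := by
  simp only [rkey, mkKey_lt_iff]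
  unfold TkLt at h
  rcases h with h | ⟨h1, h | ⟨h2, h3⟩⟩
  · exact Or.inr ⟨trivial, Or.inl h⟩
  · exact Or.inr ⟨trivial, Or.inr ⟨h1, Or.inl h⟩⟩
  · exact Or.inr ⟨trivial, Or.inr ⟨h1, Or.inr ⟨h2, Or.inl h3⟩⟩⟩

theorem ckey_thin_lt {J j j' t t' : ℕ} {κ κ' : Bool}
    (h : TkLt (tk (Wc J) J j κ t) (tk (Wc J) J j' κ' t')) :
    ckey J (.thin j κ t) < ckey J (.thin j' κ' t') := by
  simp only [ckey, mkKey_lt_iff]
  unfold TkLt at h
  rcases h with h | ⟨h1, h | ⟨h2, h3⟩⟩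
  · exact Or.inr ⟨trivial, Or.inl h⟩
  · exact Or.inr ⟨trivial, Or.inr ⟨h1, Or.inl h⟩⟩
  · exact Or.inr ⟨trivial, Or.inr ⟨h1, Or.inr ⟨h2, Or.inl h3⟩⟩⟩

/-- order of rows along a leaf, levels `≥ 1`. -/
theorem row_nest_O {J l l' t i i' : ℕ} {κ : Bool} (hl : l < l') :
    rkey J (.thin l false t i) < rkey J (.thin l' κ t i') :=
  rkey_thin_lt (tk_nest_O _ _ _ _ _ _ (Wr_dvd _ _ _ hl) (Wr_pos' _ _) (Wr_pos' _ _) hl)

theorem row_nest_C {J l l' t i i' : ℕ} {κ : Bool} (hl : l < l') (hl' : l' ≤ J) :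
    rkey J (.thin l' κ t i') < rkey J (.thin l true t i) :=
  rkey_thin_lt (tk_nest_C _ _ _ _ _ _ (Wr_dvd _ _ _ hl) (Wr_pos' _ _) (Wr_pos' _ _) hl hl')

theorem col_nest_O {J l l' t : ℕ} {κ : Bool} (hl : l < l') :
    ckey J (.thin l false t) < ckey J (.thin l' κ t) :=
  ckey_thin_lt (tk_nest_O _ _ _ _ _ _ (Wc_dvd _ _ _ hl) (Wc_pos' _ _) (Wc_pos' _ _) hl)

theorem col_nest_C {J l l' t : ℕ} {κ : Bool} (hl : l < l') (hl' : l' ≤ J) :
    ckey J (.thin l' κ t) < ckey J (.thin l true t) :=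
  ckey_thin_lt (tk_nest_C _ _ _ _ _ _ (Wc_dvd _ _ _ hl) (Wc_pos' _ _) (Wc_pos' _ _) hl hl')

/-- level zero rows carry the leaf `0`, but on a leaf `t < Wr J 0` their `tk` is the same. -/
theorem tk_zero_eq (J t : ℕ) (κ : Bool) (ht : t < Wr J 0) :
    tk (Wr J) J 0 κ 0 = tk (Wr J) J 0 κ t := by
  have h : t / Wr J 0 = 0 := Nat.div_eq_of_lt ht
  have h0 : 0 / Wr J 0 = 0 := Nat.zero_div _
  cases κ <;> simp [tk, h]

theorem row_zero_O {J l' t i i' : ℕ} {κ : Bool} (hl : 0 < l') (ht : t < Wr J 0) :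
    rkey J (.thin 0 false 0 i) < rkey J (.thin l' κ t i') := by
  apply rkey_thin_lt
  rw [tk_zero_eq J t false ht]
  exact tk_nest_O _ _ _ _ _ _ (Wr_dvd _ _ _ hl) (Wr_pos' _ _) (Wr_pos' _ _) hl

theorem row_zero_C {J l' t i i' : ℕ} {κ : Bool} (hl : 0 < l') (hl' : l' ≤ J) (ht : t < Wr J 0) :
    rkey J (.thin l' κ t i') < rkey J (.thin 0 true 0 i) := by
  apply rkey_thin_lt
  rw [tk_zero_eq J t true ht]
  exact tk_nest_C _ _ _ _ _ _ (Wr_dvd _ _ _ hl) (Wr_pos' _ _) (Wr_pos' _ _) hl hl'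

end Crest.Agent.Lib.ZigZagB
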