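/- Row 47 (S0066): generic double counting for picking lines avoiding flips. -/
import Mathlib

set_option autoImplicit false

namespace Crest.Agent.Lib.ZigZagB.FarPick

open Finset

variable {α β γ : Type*} [DecidableEq α] [DecidableEq β]

/-- few lines carry at least `L` flips. -/
theorem bad_count (Φ : Finset γ) (fst : γ → α) (s : Finset α) (L : ℕ) :
    (s.filter (fun a => ¬ (Φ.filter (fun e => fst e = a)).card < L)).card * L ≤ Φ.card := by
  classical
  set B := s.filter (fun a => ¬ (Φ.filter (fun e => fst e = a)).card < L) with hB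
  have h1 : ∑ a ∈ B, (Φ.filter (fun e => fst e = a)).card ≤ Φ.card := by
    rw [Finset.sum_card_fiberwise_eq_card_filter]
    exact card_filter_le _ _
  have h2 : B.card • L ≤ ∑ a ∈ B, (Φ.filter (fun e => fst e = a)).card := by
    apply card_nsmul_le_sum
    intro a ha
    have := (mem_filter.1 ha).2
    omega
  simpa [smul_eq_mul] using h2.trans h1

/-- avoiding the flips on a small set of good cross lines. -/
theorem avoid_set (Φ : Finset γ) (fst : γ → α) (snd : γ → β) (L : ℕ) (b : ℕ → α) (I : Finset ℕ)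
    (hb : Set.InjOn b I) (S : Finset β) (hS : ∀ c ∈ S, (Φ.filter (fun e => snd e = c)).card < L) :
    ∃ T, T ⊆ I ∧ (∀ i ∈ T, ∀ c ∈ S, ∀ e ∈ Φ, fst e = b i → snd e ≠ c) ∧
      I.card ≤ T.card + S.card * L := by
  classical
  refine ⟨I.filter (fun i => ∀ c ∈ S, ∀ e ∈ Φ, fst e = b i → snd e ≠ c), filter_subset _ _, ?_, ?_⟩
  · intro i hi
    exact (mem_filter.1 hi).2
  · have hbad : (I.filter (fun i => ¬ ∀ c ∈ S, ∀ e ∈ Φ, fst e = b i → snd e ≠ c)).card ≤ S.card * L := by
      have hsub : (I.filter (fun i => ¬ ∀ c ∈ S, ∀ e ∈ Φ, fst e = b i → snd e ≠ c)) ⊆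
          S.biUnion (fun c => I.filter (fun i => ∃ e ∈ Φ, fst e = b i ∧ snd e = c)) := by
        intro i hi
        have h2 := (mem_filter.1 hi).2
        push Not at h2
        obtain ⟨c, hc, e, he, h3, h4⟩ := h2
        exact mem_biUnion.2 ⟨c, hc, mem_filter.2 ⟨(mem_filter.1 hi).1, e, he, h3, h4⟩⟩
      refine (card_le_card hsub).trans (card_biUnion_le.trans ?_)
      refine (sum_le_card_nsmul _ _ L ?_).trans (by simp [smul_eq_mul])
      intro c hc
      refine le_trans ?_ (hS c hc).le
      refine card_le_card_of_forall_subsingleton (fun i e => fst e = b i) ?_ ?_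
      · intro i hi
        obtain ⟨e, he, h3, h4⟩ := (mem_filter.1 hi).2
        exact ⟨e, mem_filter.2 ⟨he, h4⟩, h3⟩
      · intro e _ i hi i' hi'
        have hi1 : i ∈ I := (mem_filter.1 (mem_coe.1 hi.1)).1
        have hi2 : i' ∈ I := (mem_filter.1 (mem_coe.1 hi'.1)).1
        exact hb (mem_coe.2 hi1) (mem_coe.2 hi2) (hi.2.symm.trans hi'.2)
    have hsplit := card_filter_add_card_filter_not (s := I) (fun i => ∀ c ∈ S, ∀ e ∈ Φ, fst e = b i → snd e ≠ c)
    omega

/-- avoiding the flips on a small set of good cross lines, and good lines themselves. -/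
theorem pick_set (Φ : Finset γ) (fst : γ → α) (snd : γ → β) (L : ℕ) (b : ℕ → α) (I : Finset ℕ)
    (hb : Set.InjOn b I) (S : Finset β) (hS : ∀ c ∈ S, (Φ.filter (fun e => snd e = c)).card < L)
    (s : Finset α) (hbs : ∀ i ∈ I, b i ∈ s) (B : ℕ)
    (hB : (s.filter (fun a => ¬ (Φ.filter (fun e => fst e = a)).card < L)).card ≤ B) :
    ∃ T, T ⊆ I ∧ (∀ i ∈ T, (Φ.filter (fun e => fst e = b i)).card < L ∧
        ∀ c ∈ S, ∀ e ∈ Φ, fst e = b i → snd e ≠ c) ∧
      I.card ≤ T.card + S.card * L + B := by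
  classical
  obtain ⟨T, hT, h1, h2⟩ := avoid_set Φ fst snd L b I hb S hS
  refine ⟨T.filter (fun i => (Φ.filter (fun e => fst e = b i)).card < L),
    (filter_subset _ _).trans hT, ?_, ?_⟩
  · intro i hi
    exact ⟨(mem_filter.1 hi).2, h1 i (mem_filter.1 hi).1⟩
  · have hbad : (T.filter (fun i => ¬ (Φ.filter (fun e => fst e = b i)).card < L)).card ≤ B := by
      refine le_trans ?_ hB
      refine card_le_card_of_injOn b ?_ ?_
      · intro i hi
        have hi' := mem_filter.1 (mem_coe.1 hi)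
        exact mem_coe.2 (mem_filter.2 ⟨hbs i (hT hi'.1), hi'.2⟩)
      · intro i hi i' hi' h
        have h1' := (mem_filter.1 (mem_coe.1 hi)).1
        have h2' := (mem_filter.1 (mem_coe.1 hi')).1
        exact hb (mem_coe.2 (hT h1')) (mem_coe.2 (hT h2')) h
    have hsplit := card_filter_add_card_filter_not (s := T) (fun i => (Φ.filter (fun e => fst e = b i)).card < L)
    omega

end Crest.Agent.Lib.ZigZagB.FarPick
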