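/- Row 47 (S0066), Mod FAR: picking lines and extending a core copy by padding lines. -/
import Crest.Agent.Lib.ZigZagB.Sets
import Crest.Agent.Lib.ZigZagB.FarPick
import Crest.Agent.Lib.ZigZagB.FarOrder

set_option autoImplicit false

namespace Crest.Agent.Lib.ZigZagB

open Finset

/-- the flipped cells -/
noncomputable def flips (J D P P' : ℕ) (Bt : RTag → CTag → Bool) : Finset (RTag × CTag) :=
  (rowSet J D P ×ˢ colSet J D P').filter (fun p => M J p.1 p.2 ≠ Bt p.1 p.2)

/-- a row with few flips -/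
def GoodR (Φ : Finset (RTag × CTag)) (m : ℕ) (r : RTag) : Prop :=
  (Φ.filter (fun e => e.1 = r)).card < 16 * m

/-- a column with few flips -/
def GoodC (Φ : Finset (RTag × CTag)) (m : ℕ) (c : CTag) : Prop :=
  (Φ.filter (fun e => e.2 = c)).card < 16 * m

/-- the conclusion of the farness theorem -/
def CopyEx (J D P P' : ℕ) (Bt : RTag → CTag → Bool) : Prop :=
  ∃ (rows : Fin 66 → RTag) (cols : Fin 66 → CTag),
    (∀ i, rows i ∈ rowSet J D P) ∧ (∀ j, cols j ∈ colSet J D P') ∧
    (∀ i i', i < i' → rkey J (rows i) < rkey J (rows i')) ∧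
    (∀ j j', j < j' → ckey J (cols j) < ckey J (cols j')) ∧
    ∀ i j, Bt (rows i) (cols j) = HH i j

variable {J D P P' m : ℕ} {Bt : RTag → CTag → Bool}

theorem bt_eq_of_noflip {r : RTag} {c : CTag} (hr : r ∈ rowSet J D P) (hc : c ∈ colSet J D P')
    (h : ∀ e ∈ flips J D P P' Bt, e.1 = r → e.2 ≠ c) : Bt r c = M J r c := by
  by_contra hne
  exact h (r, c) (mem_filter.2 ⟨mem_product.2 ⟨hr, hc⟩, fun h' => hne h'.symm⟩) rfl rfl

theorem bad_rows_lt (hm : 0 < m) (hΦ : (flips J D P P' Bt).card < m ^ 2) :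
    ((rowSet J D P).filter (fun a => ¬ ((flips J D P P' Bt).filter (fun e => e.1 = a)).card < 16 * m)).card * 16 < m := by
  have h := FarPick.bad_count (flips J D P P' Bt) Prod.fst (rowSet J D P) (16 * m)
  have h1 : ((rowSet J D P).filter (fun a => ¬ ((flips J D P P' Bt).filter (fun e => e.1 = a)).card < 16 * m)).card * 16 * m < m * m := by
    calc _ = ((rowSet J D P).filter (fun a => ¬ ((flips J D P P' Bt).filter (fun e => e.1 = a)).card < 16 * m)).card * (16 * m) := by
          ring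
      _ ≤ (flips J D P P' Bt).card := h
      _ < m * m := by rw [← sq]; exact hΦ
  exact Nat.lt_of_mul_lt_mul_right h1

theorem bad_cols_lt (hm : 0 < m) (hΦ : (flips J D P P' Bt).card < m ^ 2) :
    ((colSet J D P').filter (fun a => ¬ ((flips J D P P' Bt).filter (fun e => e.2 = a)).card < 16 * m)).card * 16 < m := by
  have h := FarPick.bad_count (flips J D P P' Bt) Prod.snd (colSet J D P') (16 * m)
  have h1 : ((colSet J D P').filter (fun a => ¬ ((flips J D P P' Bt).filter (fun e => e.2 = a)).card < 16 * m)).card * 16 * m < m * m := by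
    calc _ = ((colSet J D P').filter (fun a => ¬ ((flips J D P P' Bt).filter (fun e => e.2 = a)).card < 16 * m)).card * (16 * m) := by
          ring
      _ ≤ (flips J D P P' Bt).card := h
      _ < m * m := by rw [← sq]; exact hΦ
  exact Nat.lt_of_mul_lt_mul_right h1

/-- pick a good row in a block, without flips on a few good columns. -/
theorem pickR (hm : 0 < m) (hΦ : (flips J D P P' Bt).card < m ^ 2) (hD : 81 * m ≤ D) (b : ℕ → RTag)
    (hb : Function.Injective b) (hmem : ∀ i, i < D → b i ∈ rowSet J D P) (S : Finset CTag)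
    (hS5 : S.card ≤ 5) (hSm : ∀ c ∈ S, c ∈ colSet J D P')
    (hSg : ∀ c ∈ S, GoodC (flips J D P P' Bt) m c) :
    ∃ i, i < D ∧ GoodR (flips J D P P' Bt) m (b i) ∧ ∀ c ∈ S, Bt (b i) c = M J (b i) c := by
  have hB := bad_rows_lt hm hΦ
  obtain ⟨T, hT, h1, h2⟩ := FarPick.pick_set (flips J D P P' Bt) Prod.fst Prod.snd (16 * m) b
    (range D) (hb.injOn) S hSg (rowSet J D P) (fun i hi => hmem i (mem_range.1 hi)) _ le_rfl
  have h3 : S.card * (16 * m) ≤ 5 * (16 * m) := Nat.mul_le_mul_right _ hS5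
  rw [card_range] at h2
  have h4 : 0 < T.card := by omega
  obtain ⟨i, hi⟩ := card_pos.1 h4
  have h5 := h1 i hi
  have hiD := mem_range.1 (hT hi)
  exact ⟨i, hiD, h5.1, fun c hc => bt_eq_of_noflip (hmem i hiD) (hSm c hc) (h5.2 c hc)⟩

/-- pick a good column in a block, without flips on a few good rows. -/
theorem pickC (hm : 0 < m) (hΦ : (flips J D P P' Bt).card < m ^ 2) (hD : 81 * m ≤ D) (b : ℕ → CTag)
    (hb : Function.Injective b) (hmem : ∀ i, i < D → b i ∈ colSet J D P') (S : Finset RTag)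
    (hS5 : S.card ≤ 5) (hSm : ∀ c ∈ S, c ∈ rowSet J D P)
    (hSg : ∀ c ∈ S, GoodR (flips J D P P' Bt) m c) :
    ∃ i, i < D ∧ GoodC (flips J D P P' Bt) m (b i) ∧ ∀ c ∈ S, Bt c (b i) = M J c (b i) := by
  have hB := bad_cols_lt hm hΦ
  obtain ⟨T, hT, h1, h2⟩ := FarPick.pick_set (flips J D P P' Bt) Prod.snd Prod.fst (16 * m) b
    (range D) (hb.injOn) S hSg (colSet J D P') (fun i hi => hmem i (mem_range.1 hi)) _ le_rfl
  have h3 : S.card * (16 * m) ≤ 5 * (16 * m) := Nat.mul_le_mul_right _ hS5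
  rw [card_range] at h2
  have h4 : 0 < T.card := by omega
  obtain ⟨i, hi⟩ := card_pos.1 h4
  have h5 := h1 i hi
  have hiD := mem_range.1 (hT hi)
  refine ⟨i, hiD, h5.1, fun c hc => bt_eq_of_noflip (hSm c hc) (hmem i hiD) ?_⟩
  intro e he h6 h7
  exact h5.2 c hc e he h7 h6

theorem pad_mem_rowSet {i : ℕ} (hi : i < P) : RTag.pad i ∈ rowSet J D P :=
  mem_union.2 (Or.inr (mem_image.2 ⟨i, mem_range.2 hi, rfl⟩))

theorem pad_mem_colSet {i : ℕ} (hi : i < P') : CTag.pad i ∈ colSet J D P' :=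
  mem_union.2 (Or.inr (mem_image.2 ⟨i, mem_range.2 hi, rfl⟩))

theorem M_pad_right (J : ℕ) (r : RTag) (i : ℕ) : M J r (.pad i) = true := by
  cases r <;> rfl

theorem rkey_pad_lt {J a b : ℕ} (h : a < b) : rkey J (.pad a) < rkey J (.pad b) := by
  simpa [rkey, mkKey_lt_iff] using h

theorem ckey_pad_lt {J a b : ℕ} (h : a < b) : ckey J (.pad a) < ckey J (.pad b) := by
  simpa [ckey, mkKey_lt_iff] using h

/-- Extending a core copy by padding lines. -/
theorem copy_of_core (hm : 0 < m) (hΦ : (flips J D P P' Bt).card < m ^ 2)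
    (hP : 81 * m + 61 ≤ P) (hP' : 1056 * m + 61 ≤ P') (ρ : Fin 5 → RTag) (γ : Fin 5 → CTag)
    (hρmem : ∀ a, ρ a ∈ rowSet J D P) (hγmem : ∀ b, γ b ∈ colSet J D P')
    (hρg : ∀ a, GoodR (flips J D P P' Bt) m (ρ a)) (hγg : ∀ b, GoodC (flips J D P P' Bt) m (γ b))
    (hρrk : ∀ a, 1 ≤ rkR (ρ a)) (hγrk : ∀ b, 1 ≤ rkC (γ b))
    (hρm : ∀ a a', a < a' → rkey J (ρ a) < rkey J (ρ a'))
    (hγm : ∀ a a', a < a' → ckey J (γ a) < ckey J (γ a'))
    (hcell : ∀ a b, Bt (ρ a) (γ b) = core a b) : CopyEx J D P P' Bt := by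
  classical
  -- padding rows
  have hB := bad_rows_lt hm hΦ
  have hpadinj : Function.Injective RTag.pad := fun a b h => RTag.pad.inj h
  have hcpadinj : Function.Injective CTag.pad := fun a b h => CTag.pad.inj h
  obtain ⟨T, hT, h1, h2⟩ := FarPick.pick_set (flips J D P P' Bt) Prod.fst Prod.snd (16 * m) RTag.pad
    (range P) hpadinj.injOn
    (univ.image γ) (by
      intro c hc
      obtain ⟨b, _, rfl⟩ := mem_image.1 hc
      exact hγg b) (rowSet J D P) (fun i hi => pad_mem_rowSet (mem_range.1 hi)) _ le_rfl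
  have hcard5 : (univ.image γ).card ≤ 5 := by
    simpa using (card_image_le (s := (univ : Finset (Fin 5))) (f := γ))
  have h3 : (univ.image γ).card * (16 * m) ≤ 5 * (16 * m) := Nat.mul_le_mul_right _ hcard5
  rw [card_range] at h2
  have h61 : 61 ≤ T.card := by omega
  set p := T.orderEmbOfCardLe h61 with hp
  have hpT : ∀ a, p a ∈ T := fun a => orderEmbOfCardLe_mem T h61 a
  let rows : Fin 66 → RTag := fun i =>
    if h : i.val < 61 then RTag.pad (p ⟨i.val, h⟩) else ρ ⟨i.val - 61, by omega⟩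
  have hrows_lo : ∀ i : Fin 66, ∀ h : i.val < 61, rows i = RTag.pad (p ⟨i.val, h⟩) := fun i h => by
    simp only [rows, dif_pos h]
  have hrows_hi : ∀ i : Fin 66, ∀ h : ¬ i.val < 61, rows i = ρ ⟨i.val - 61, by omega⟩ := fun i h => by
    simp only [rows, dif_neg h]
  have hrows_mem : ∀ i, rows i ∈ rowSet J D P := by
    intro i
    by_cases h : i.val < 61
    · rw [hrows_lo i h]
      exact pad_mem_rowSet (mem_range.1 (hT (hpT _)))
    · rw [hrows_hi i h]
      exact hρmem _
  have hrows_good : ∀ i, GoodR (flips J D P P' Bt) m (rows i) := by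
    intro i
    by_cases h : i.val < 61
    · rw [hrows_lo i h]
      exact (h1 _ (hpT _)).1
    · rw [hrows_hi i h]
      exact hρg _
  -- padding columns
  obtain ⟨T', hT', h1', h2'⟩ := FarPick.avoid_set (flips J D P P' Bt) Prod.snd Prod.fst (16 * m) CTag.pad
    (range P') hcpadinj.injOn
    (univ.image rows) (by
      intro c hc
      obtain ⟨b, _, rfl⟩ := mem_image.1 hc
      exact hrows_good b)
  have hcard66 : (univ.image rows).card ≤ 66 := by
    simpa using (card_image_le (s := (univ : Finset (Fin 66))) (f := rows))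
  have h3' : (univ.image rows).card * (16 * m) ≤ 66 * (16 * m) := Nat.mul_le_mul_right _ hcard66
  rw [card_range] at h2'
  have h61' : 61 ≤ T'.card := by omega
  set p' := T'.orderEmbOfCardLe h61' with hp'
  have hpT' : ∀ a, p' a ∈ T' := fun a => orderEmbOfCardLe_mem T' h61' a
  let cols : Fin 66 → CTag := fun i =>
    if h : i.val < 61 then CTag.pad (p' ⟨i.val, h⟩) else γ ⟨i.val - 61, by omega⟩
  have hcols_lo : ∀ i : Fin 66, ∀ h : i.val < 61, cols i = CTag.pad (p' ⟨i.val, h⟩) := fun i h => by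
    simp only [cols, dif_pos h]
  have hcols_hi : ∀ i : Fin 66, ∀ h : ¬ i.val < 61, cols i = γ ⟨i.val - 61, by omega⟩ := fun i h => by
    simp only [cols, dif_neg h]
  have hcols_mem : ∀ i, cols i ∈ colSet J D P' := by
    intro i
    by_cases h : i.val < 61
    · rw [hcols_lo i h]
      exact pad_mem_colSet (mem_range.1 (hT' (hpT' _)))
    · rw [hcols_hi i h]
      exact hγmem _
  refine ⟨rows, cols, hrows_mem, hcols_mem, ?_, ?_, ?_⟩
  · intro i i' hii'
    have hlt : i.val < i'.val := hii'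
    by_cases h : i.val < 61
    · rw [hrows_lo i h]
      by_cases h' : i'.val < 61
      · rw [hrows_lo i' h']
        exact rkey_pad_lt (p.strictMono (Fin.mk_lt_mk.2 hlt))
      · rw [hrows_hi i' h']
        exact rkey_of_rk_lt (by show 0 < rkR _; exact hρrk _)
    · have h' : ¬ i'.val < 61 := by omega
      rw [hrows_hi i h, hrows_hi i' h']
      exact hρm _ _ (by simp only [Fin.lt_def]; omega)
  · intro i i' hii'
    have hlt : i.val < i'.val := hii'
    by_cases h : i.val < 61
    · rw [hcols_lo i h]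
      by_cases h' : i'.val < 61
      · rw [hcols_lo i' h']
        exact ckey_pad_lt (p'.strictMono (Fin.mk_lt_mk.2 hlt))
      · rw [hcols_hi i' h']
        exact ckey_of_rk_lt (by show 0 < rkC _; exact hγrk _)
    · have h' : ¬ i'.val < 61 := by omega
      rw [hcols_hi i h, hcols_hi i' h']
      exact hγm _ _ (by simp only [Fin.lt_def]; omega)
  · intro i j
    by_cases hj : j.val < 61
    · -- padding column
      have hHH : HH i j = true := by
        unfold HH
        rw [dif_neg (by omega)]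
      rw [hHH, hcols_lo j hj]
      have hmem : CTag.pad (p' ⟨j.val, hj⟩) ∈ colSet J D P' := pad_mem_colSet (mem_range.1 (hT' (hpT' _)))
      have hb : Bt (rows i) (CTag.pad (p' ⟨j.val, hj⟩)) = M J (rows i) (CTag.pad (p' ⟨j.val, hj⟩)) := by
        refine bt_eq_of_noflip (hrows_mem i) hmem ?_
        intro e he h6 h7
        exact h1' _ (hpT' ⟨j.val, hj⟩) (rows i) (mem_image.2 ⟨i, mem_univ _, rfl⟩) e he h7 h6
      rw [hb, M_pad_right]
    · by_cases hi : i.val < 61
      · have hHH : HH i j = true := by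
          unfold HH
          rw [dif_neg (by omega)]
        rw [hHH, hcols_hi j hj, hrows_lo i hi]
        have hmem : RTag.pad (p ⟨i.val, hi⟩) ∈ rowSet J D P := pad_mem_rowSet (mem_range.1 (hT (hpT _)))
        have hb : Bt (RTag.pad (p ⟨i.val, hi⟩)) (γ ⟨j.val - 61, by omega⟩) =
            M J (RTag.pad (p ⟨i.val, hi⟩)) (γ ⟨j.val - 61, by omega⟩) :=
          bt_eq_of_noflip hmem (hγmem _) ((h1 _ (hpT ⟨i.val, hi⟩)).2 _ (mem_image.2 ⟨_, mem_univ _, rfl⟩))
        rw [hb]
        rfl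
      · have hHH : HH i j = core ⟨i.val - 61, by omega⟩ ⟨j.val - 61, by omega⟩ := by
          unfold HH
          rw [dif_pos ⟨by omega, by omega⟩]
        rw [hHH, hcols_hi j hj, hrows_hi i hi]
        exact hcell _ _

end Crest.Agent.Lib.ZigZagB
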