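/- Row 47 (S0066), Mod FAR: farness of the tag matrix (part (F) of the proof, findings id 307).
Everything is at the level of tags; `Bt` is the competitor matrix, read on tags. -/
import Crest.Agent.Lib.ZigZagB.FarBase

set_option autoImplicit false

namespace Crest.Agent.Lib.ZigZagB

open Finset

theorem forall5 {α : Type*} [DecidableEq α] {p : α → Prop} {a b c d e : α} (ha : p a) (hb : p b)
    (hc : p c) (hd : p d) (he : p e) : ∀ r ∈ ({a, b, c, d, e} : Finset α), p r := by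
  simp only [mem_insert, mem_singleton]
  rintro r (rfl | rfl | rfl | rfl | rfl) <;> assumption

theorem forall3 {α : Type*} [DecidableEq α] {p : α → Prop} {a b c : α} (ha : p a) (hb : p b)
    (hc : p c) : ∀ r ∈ ({a, b, c} : Finset α), p r := by
  simp only [mem_insert, mem_singleton]
  rintro r (rfl | rfl | rfl) <;> assumption

theorem forall2 {α : Type*} [DecidableEq α] {p : α → Prop} {a b : α} (ha : p a) (hb : p b) :
    ∀ r ∈ ({a, b} : Finset α), p r := by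
  simp only [mem_insert, mem_singleton]
  rintro r (rfl | rfl) <;> assumption

/-- the leaf of a thin row -/
def tOfR : RTag → ℕ
  | .thin _ _ t _ => t
  | _ => 0

/-- the leaf of a thin column -/
def tOfC : CTag → ℕ
  | .thin _ _ t => t
  | _ => 0

section
variable {J D P P' m : ℕ} {Bt : RTag → CTag → Bool}

/-- A core copy with named lines. -/
theorem copy5 (hm : 0 < m) (hΦ : (flips J D P P' Bt).card < m ^ 2)
    (hP : 81 * m + 61 ≤ P) (hP' : 1056 * m + 61 ≤ P') (r1 r2 r3 r4 r5 : RTag) (s1 s2 s3 s4 s5 : CTag)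
    (lr : ∀ r ∈ ({r1, r2, r3, r4, r5} : Finset RTag),
      r ∈ rowSet J D P ∧ GoodR (flips J D P P' Bt) m r ∧ 1 ≤ rkR r)
    (lc : ∀ c ∈ ({s1, s2, s3, s4, s5} : Finset CTag),
      c ∈ colSet J D P' ∧ GoodC (flips J D P P' Bt) m c ∧ 1 ≤ rkC c)
    (o12 : rkey J r1 < rkey J r2) (o23 : rkey J r2 < rkey J r3) (o34 : rkey J r3 < rkey J r4)
    (o45 : rkey J r4 < rkey J r5)
    (c12 : ckey J s1 < ckey J s2) (c23 : ckey J s2 < ckey J s3) (c34 : ckey J s3 < ckey J s4)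
    (c45 : ckey J s4 < ckey J s5)
    (row1 : Bt r1 s1 = true ∧ Bt r1 s2 = true ∧ Bt r1 s3 = true ∧ Bt r1 s4 = true ∧ Bt r1 s5 = false)
    (row2 : Bt r2 s1 = true ∧ Bt r2 s2 = false ∧ Bt r2 s3 = true ∧ Bt r2 s4 = false ∧ Bt r2 s5 = true)
    (row3 : Bt r3 s1 = true ∧ Bt r3 s2 = true ∧ Bt r3 s3 = true ∧ Bt r3 s4 = true ∧ Bt r3 s5 = false)
    (row4 : Bt r4 s1 = true ∧ Bt r4 s2 = false ∧ Bt r4 s3 = true ∧ Bt r4 s4 = true ∧ Bt r4 s5 = true)
    (row5 : Bt r5 s1 = false ∧ Bt r5 s2 = true ∧ Bt r5 s3 = false ∧ Bt r5 s4 = true ∧ Bt r5 s5 = true) :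
    CopyEx J D P P' Bt := by
  have hr : ∀ a : Fin 5, (![r1, r2, r3, r4, r5] a) ∈ ({r1, r2, r3, r4, r5} : Finset RTag) := by
    intro a; fin_cases a <;> simp
  have hc : ∀ a : Fin 5, (![s1, s2, s3, s4, s5] a) ∈ ({s1, s2, s3, s4, s5} : Finset CTag) := by
    intro a; fin_cases a <;> simp
  have hmr : StrictMono (fun a : Fin 5 => rkey J (![r1, r2, r3, r4, r5] a)) := by
    rw [Fin.strictMono_iff_lt_succ]
    intro i
    fin_cases i
    exacts [o12, o23, o34, o45]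
  have hmc : StrictMono (fun a : Fin 5 => ckey J (![s1, s2, s3, s4, s5] a)) := by
    rw [Fin.strictMono_iff_lt_succ]
    intro i
    fin_cases i
    exacts [c12, c23, c34, c45]
  refine copy_of_core hm hΦ hP hP' ![r1, r2, r3, r4, r5] ![s1, s2, s3, s4, s5]
    (fun a => (lr _ (hr a)).1) (fun a => (lc _ (hc a)).1) (fun a => (lr _ (hr a)).2.1)
    (fun a => (lc _ (hc a)).2.1) (fun a => (lr _ (hr a)).2.2) (fun a => (lc _ (hc a)).2.2)
    (fun a a' h => hmr h) (fun a a' h => hmc h) ?_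
  intro a b
  fin_cases a <;> fin_cases b
  exacts [row1.1, row1.2.1, row1.2.2.1, row1.2.2.2.1, row1.2.2.2.2,
    row2.1, row2.2.1, row2.2.2.1, row2.2.2.2.1, row2.2.2.2.2,
    row3.1, row3.2.1, row3.2.2.1, row3.2.2.2.1, row3.2.2.2.2,
    row4.1, row4.2.1, row4.2.2.1, row4.2.2.2.1, row4.2.2.2.2,
    row5.1, row5.2.1, row5.2.2.1, row5.2.2.2.1, row5.2.2.2.2]

end

theorem LL_le_Wr (J : ℕ) : LL J ≤ Wr J 0 := by
  unfold LL Wr
  exact Nat.pow_le_pow_right (by norm_num) (by omega)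

/-- The main chain. -/
theorem far_main (m J P P' : ℕ) (hm : 0 < m) (hJ : 1 ≤ J) (hLL : m ≤ 8 * LL J)
    (hP : 81 * m + 61 ≤ P) (hP' : 1056 * m + 61 ≤ P') (Bt : RTag → CTag → Bool)
    (hΦ : (flips J (81 * m) P P' Bt).card < m ^ 2) : CopyEx J (81 * m) P P' Bt := by
  classical
  by_contra hno
  -- a good leaf
  have hBR := bad_rows_lt hm hΦ
  have hBC := bad_cols_lt hm hΦ
  obtain ⟨t, htlt, htR, htC⟩ : ∃ t, t < LL J ∧
      (∀ r ∈ rowSet J (81 * m) P, tOfR r = t → GoodR (flips J (81 * m) P P' Bt) m r) ∧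
      (∀ c ∈ colSet J (81 * m) P', tOfC c = t → GoodC (flips J (81 * m) P P' Bt) m c) := by
    set BR := (rowSet J (81 * m) P).filter (fun a => ¬ ((flips J (81 * m) P P' Bt).filter (fun e => e.1 = a)).card < 16 * m) with hBRdef
    set BC := (colSet J (81 * m) P').filter (fun a => ¬ ((flips J (81 * m) P P' Bt).filter (fun e => e.2 = a)).card < 16 * m) with hBCdef
    have hcard : ((BR.image tOfR) ∪ (BC.image tOfC)).card < (range (LL J)).card := by
      rw [card_range]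
      have h1 := card_union_le (BR.image tOfR) (BC.image tOfC)
      have h2 : (BR.image tOfR).card ≤ BR.card := card_image_le
      have h3 : (BC.image tOfC).card ≤ BC.card := card_image_le
      omega
    obtain ⟨t, ht, ht'⟩ := exists_mem_notMem_of_card_lt_card hcard
    refine ⟨t, mem_range.1 ht, ?_, ?_⟩
    · intro r hr hrt
      by_contra hng
      apply ht'
      refine mem_union.2 (Or.inl (mem_image.2 ⟨r, ?_, hrt⟩))
      exact mem_filter.2 ⟨hr, hng⟩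
    · intro r hr hrt
      by_contra hng
      apply ht'
      refine mem_union.2 (Or.inr (mem_image.2 ⟨r, ?_, hrt⟩))
      exact mem_filter.2 ⟨hr, hng⟩
  -- membership
  have hcolX : ∀ k κ, k < J → CTag.thin k κ t ∈ colSet J (81 * m) P' := fun k κ hk =>
    mem_union.2 (Or.inl (mem_colOthers.2 ⟨hk, htlt⟩))
  have hrowX : ∀ j κ, 1 ≤ j → j ≤ J → (j = J → κ = false) → RTag.thin j κ t 0 ∈ rowSet J (81 * m) P :=
    fun j κ h1 h2 h3 => mem_union.2 (Or.inl (mem_rowOthers.2 (Or.inr ⟨h1, h2, htlt, rfl, h3⟩)))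
  have gcolX : ∀ k κ, k < J → GoodC (flips J (81 * m) P P' Bt) m (CTag.thin k κ t) := fun k κ hk =>
    htC _ (hcolX k κ hk) rfl
  have growX : ∀ j κ, 1 ≤ j → j ≤ J → (j = J → κ = false) →
      GoodR (flips J (81 * m) P P' Bt) m (RTag.thin j κ t 0) := fun j κ h1 h2 h3 =>
    htR _ (hrowX j κ h1 h2 h3) rfl
  have mem_rs : ∀ b i, i < 81 * m → RTag.rs b i ∈ rowSet J (81 * m) P := fun b i hi =>
    mem_union.2 (Or.inl (mem_rowOthers.2 hi))
  have mem_zs : ∀ i, i < 81 * m → RTag.zs i ∈ rowSet J (81 * m) P := fun i hi =>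
    mem_union.2 (Or.inl (mem_rowOthers.2 hi))
  have mem_f : ∀ j i, j < J → i < 81 * m → RTag.f j i ∈ rowSet J (81 * m) P := fun j i hj hi =>
    mem_union.2 (Or.inl (mem_rowOthers.2 ⟨hj, hi⟩))
  have mem_g : ∀ j c i, j < J → c < 2 → i < 81 * m → RTag.g j c i ∈ rowSet J (81 * m) P :=
    fun j c i hj hc hi => mem_union.2 (Or.inl (mem_rowOthers.2 ⟨hj, hc, hi⟩))
  have mem_k : ∀ j c i, 1 ≤ j → j ≤ J → c < 2 → i < 81 * m → RTag.k j c i ∈ rowSet J (81 * m) P :=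
    fun j c i h1 h2 hc hi => mem_union.2 (Or.inl (mem_rowOthers.2 ⟨h1, h2, hc, hi⟩))
  have cmem_cs : ∀ b i, i < 81 * m → CTag.cs b i ∈ colSet J (81 * m) P' := fun b i hi =>
    mem_union.2 (Or.inl (mem_colOthers.2 hi))
  have cmem_w : ∀ c i, c < 2 → i < 81 * m → CTag.w c i ∈ colSet J (81 * m) P' := fun c i hc hi =>
    mem_union.2 (Or.inl (mem_colOthers.2 ⟨hc, hi⟩))
  have cmem_anc : ∀ i, i < 81 * m → CTag.anc i ∈ colSet J (81 * m) P' := fun i hi =>
    mem_union.2 (Or.inl (mem_colOthers.2 hi))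
  have cmem_zs : ∀ i, i < 81 * m → CTag.zs i ∈ colSet J (81 * m) P' := fun i hi =>
    mem_union.2 (Or.inl (mem_colOthers.2 hi))
  have cmem_f : ∀ j i, j < J → i < 81 * m → CTag.f j i ∈ colSet J (81 * m) P' := fun j i hj hi =>
    mem_union.2 (Or.inl (mem_colOthers.2 ⟨hj, hi⟩))
  have cmem_g : ∀ j c i, 1 ≤ j → j ≤ J → c < 2 → i < 81 * m → CTag.g j c i ∈ colSet J (81 * m) P' :=
    fun j c i h1 h2 hc hi => mem_union.2 (Or.inl (mem_colOthers.2 ⟨h1, h2, hc, hi⟩))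
  have cmem_k : ∀ j c i, 1 ≤ j → j ≤ J → c < 2 → i < 81 * m → CTag.k j c i ∈ colSet J (81 * m) P' :=
    fun j c i h1 h2 hc hi => mem_union.2 (Or.inl (mem_colOthers.2 ⟨h1, h2, hc, hi⟩))
  -- A step
  have stepA : ∀ (j : ℕ), j < J → ∀ (e1 e2 : RTag) (te : ℕ), e1 ∈ rowSet J (81 * m) P → e2 ∈ rowSet J (81 * m) P →
      GoodR (flips J (81 * m) P P' Bt) m e1 → GoodR (flips J (81 * m) P P' Bt) m e2 →
      rkR e1 = 2 → rkR e2 = 2 → M J e1 = Mthin J j te → M J e2 = Mthin J j te →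
      ∀ (κ κ' : Bool), (j + 1 = J → κ = false) → rkey J e1 < rkey J (.thin (j + 1) κ t 0) →
      rkey J (.thin (j + 1) κ t 0) < rkey J e2 → Bt e1 (.thin j κ' t) = true → Bt e2 (.thin j κ' t) = true →
      Bt (.thin (j + 1) κ t 0) (.thin j κ' t) = true := by
    intro j hj e1 e2 te me1 me2 ge1 ge2 ke1 ke2 Me1 Me2 κ κ' hκ ho hc hP1 hP2
    by_contra hne
    have hx : Bt (.thin (j + 1) κ t 0) (.thin j κ' t) = false := by simpa using hne
    have ma := hcolX j κ' hj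
    have ga := gcolX j κ' hj
    have mx := hrowX (j + 1) κ (by omega) (by omega) hκ
    have gx := growX (j + 1) κ (by omega) (by omega) hκ
    obtain ⟨c, hcdef⟩ : ∃ c, c = (t / Wc J j) % 2 := ⟨_, rfl⟩
    have hc2 : c < 2 := by rw [hcdef]; exact Nat.mod_lt _ (by norm_num)
    obtain ⟨iz, hiz, gz, uz⟩ := pickR hm hΦ le_rfl RTag.zs (fun a b h => RTag.zs.inj h) mem_zs
      {CTag.thin j κ' t} (by simp) (by simpa using ma) (by simpa using ga)
    obtain ⟨ig, hig, gg, ug⟩ := pickR hm hΦ le_rfl (RTag.g j c) (fun a b h => (RTag.g.inj h).2.2)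
      (fun i hi => mem_g j c i hj hc2 hi)
      {CTag.thin j κ' t} (by simp) (by simpa using ma) (by simpa using ga)
    have mz := mem_zs iz hiz
    have mg := mem_g j c ig hj hc2 hig
    have hS5 : ∀ r ∈ ({e1, RTag.thin (j + 1) κ t 0, e2, RTag.zs iz, RTag.g j c ig} : Finset RTag),
        r ∈ rowSet J (81 * m) P ∧ GoodR (flips J (81 * m) P P' Bt) m r ∧ 1 ≤ rkR r :=
      forall5 ⟨me1, ge1, by omega⟩ ⟨mx, gx, by simp [rkR]⟩ ⟨me2, ge2, by omega⟩
        ⟨mz, gz, by simp [rkR]⟩ ⟨mg, gg, by simp [rkR]⟩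
    have hS5m := fun r hr => (hS5 r hr).1
    have hS5g := fun r hr => (hS5 r hr).2.1
    obtain ⟨i1, hi1, g1, u1⟩ := pickC hm hΦ le_rfl (CTag.cs false) (fun a b h => (CTag.cs.inj h).2)
      (cmem_cs false) _ card_le_five hS5m hS5g
    obtain ⟨i3, hi3, g3, u3⟩ := pickC hm hΦ le_rfl (CTag.cs true) (fun a b h => (CTag.cs.inj h).2)
      (cmem_cs true) _ card_le_five hS5m hS5g
    obtain ⟨i4, hi4, g4, u4⟩ := pickC hm hΦ le_rfl (CTag.f j) (fun a b h => (CTag.f.inj h).2)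
      (fun i hi => cmem_f j i hj hi) _ card_le_five hS5m hS5g
    obtain ⟨i5, hi5, g5, u5⟩ := pickC hm hΦ le_rfl (CTag.k (j + 1) c) (fun a b h => (CTag.k.inj h).2.2)
      (fun i hi => cmem_k (j + 1) c i (by omega) (by omega) hc2 hi) _ card_le_five hS5m hS5g
    apply hno
    refine copy5 hm hΦ hP hP' e1 (.thin (j + 1) κ t 0) e2 (.zs iz) (.g j c ig)
      (.cs false i1) (.thin j κ' t) (.cs true i3) (.f j i4) (.k (j + 1) c i5) hS5 ?_ ho hc
      (rkey_of_rk_lt (by rw [ke2]; simp [rkR])) (rkey_of_rk_lt (by simp [rkR]))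
      (ckey_of_rk_lt (by simp [rkC])) (ckey_of_rk_lt (by simp [rkC]))
      (ckey_of_rk_lt (by simp [rkC])) (ckey_of_rk_lt (by simp [rkC])) ?_ ?_ ?_ ?_ ?_
    · exact forall5 ⟨cmem_cs _ _ hi1, g1, by simp [rkC]⟩ ⟨ma, ga, by simp [rkC]⟩
        ⟨cmem_cs _ _ hi3, g3, by simp [rkC]⟩ ⟨cmem_f j i4 hj hi4, g4, by simp [rkC]⟩
        ⟨cmem_k _ _ _ (by omega) (by omega) hc2 hi5, g5, by simp [rkC]⟩
    · refine ⟨?_, hP1, ?_, ?_, ?_⟩
      · rw [u1 e1 (by simp), Me1]; rfl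
      · rw [u3 e1 (by simp), Me1]; rfl
      · rw [u4 e1 (by simp), Me1]; simp [Mthin]
      · rw [u5 e1 (by simp), Me1]; simp [Mthin]
    · refine ⟨?_, hx, ?_, ?_, ?_⟩
      · rw [u1 _ (by simp)]; rfl
      · rw [u3 _ (by simp)]; rfl
      · rw [u4 _ (by simp)]; simp [M, Mthin]
      · rw [u5 _ (by simp)]; simp [M, Mthin, hcdef]
    · refine ⟨?_, hP2, ?_, ?_, ?_⟩
      · rw [u1 e2 (by simp), Me2]; rfl
      · rw [u3 e2 (by simp), Me2]; rfl
      · rw [u4 e2 (by simp), Me2]; simp [Mthin]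
      · rw [u5 e2 (by simp), Me2]; simp [Mthin]
    · refine ⟨?_, ?_, ?_, ?_, ?_⟩
      · rw [u1 _ (by simp)]; rfl
      · rw [uz _ (by simp)]; rfl
      · rw [u3 _ (by simp)]; rfl
      · rw [u4 _ (by simp)]; rfl
      · rw [u5 _ (by simp)]; rfl
    · refine ⟨?_, ?_, ?_, ?_, ?_⟩
      · rw [u1 _ (by simp)]; rfl
      · rw [ug _ (by simp)]; simp [M, Mg, hcdef]
      · rw [u3 _ (by simp)]; rfl
      · rw [u4 _ (by simp)]; simp [M, Mg]
      · rw [u5 _ (by simp)]; simp [M, Mg]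
  -- B step
  have stepB : ∀ (j : ℕ), j + 1 < J → (∀ κ κ', Bt (.thin (j + 1) κ t 0) (.thin j κ' t) = true) →
      ∀ κ κ', Bt (.thin (j + 1) κ t 0) (.thin (j + 1) κ' t) = true := by
    intro j hj hQ κ κ'
    by_contra hne
    have hx : Bt (.thin (j + 1) κ t 0) (.thin (j + 1) κ' t) = false := by simpa using hne
    have mx := hrowX (j + 1) κ (by omega) (by omega) (by omega)
    have gx := growX (j + 1) κ (by omega) (by omega) (by omega)
    have hS3 : ∀ c ∈ ({CTag.thin j false t, CTag.thin (j + 1) κ' t, CTag.thin j true t} : Finset CTag),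
        c ∈ colSet J (81 * m) P' ∧ GoodC (flips J (81 * m) P P' Bt) m c ∧ 1 ≤ rkC c :=
      forall3 ⟨hcolX _ _ (by omega), gcolX _ _ (by omega), by simp [rkC]⟩
        ⟨hcolX _ _ (by omega), gcolX _ _ (by omega), by simp [rkC]⟩
        ⟨hcolX _ _ (by omega), gcolX _ _ (by omega), by simp [rkC]⟩
    have hS3m := fun r hr => (hS3 r hr).1
    have hS3g := fun r hr => (hS3 r hr).2.1
    obtain ⟨c, hcdef⟩ : ∃ c, c = (t / Wr J (j + 1)) % 2 := ⟨_, rfl⟩
    have hc2 : c < 2 := by rw [hcdef]; exact Nat.mod_lt _ (by norm_num)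
    obtain ⟨i1, hi1, g1, u1⟩ := pickR hm hΦ le_rfl (RTag.rs false) (fun a b h => (RTag.rs.inj h).2)
      (mem_rs false) _ (card_le_three.trans (by norm_num)) hS3m hS3g
    obtain ⟨i3, hi3, g3, u3⟩ := pickR hm hΦ le_rfl (RTag.rs true) (fun a b h => (RTag.rs.inj h).2)
      (mem_rs true) _ (card_le_three.trans (by norm_num)) hS3m hS3g
    obtain ⟨i4, hi4, g4, u4⟩ := pickR hm hΦ le_rfl (RTag.f j) (fun a b h => (RTag.f.inj h).2)
      (fun i hi => mem_f j i (by omega) hi) _ (card_le_three.trans (by norm_num)) hS3m hS3g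
    obtain ⟨i5, hi5, g5, u5⟩ := pickR hm hΦ le_rfl (RTag.k (j + 1) c) (fun a b h => (RTag.k.inj h).2.2)
      (fun i hi => mem_k (j + 1) c i (by omega) (by omega) hc2 hi) _ (card_le_three.trans (by norm_num)) hS3m hS3g
    have hS5 : ∀ r ∈ ({RTag.rs false i1, RTag.thin (j + 1) κ t 0, RTag.rs true i3, RTag.f j i4,
          RTag.k (j + 1) c i5} : Finset RTag),
        r ∈ rowSet J (81 * m) P ∧ GoodR (flips J (81 * m) P P' Bt) m r ∧ 1 ≤ rkR r :=
      forall5 ⟨mem_rs _ _ hi1, g1, by simp [rkR]⟩ ⟨mx, gx, by simp [rkR]⟩ ⟨mem_rs _ _ hi3, g3, by simp [rkR]⟩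
        ⟨mem_f _ _ (by omega) hi4, g4, by simp [rkR]⟩
        ⟨mem_k _ _ _ (by omega) (by omega) hc2 hi5, g5, by simp [rkR]⟩
    have hS5m := fun r hr => (hS5 r hr).1
    have hS5g := fun r hr => (hS5 r hr).2.1
    obtain ⟨i6, hi6, g6, u6⟩ := pickC hm hΦ le_rfl CTag.zs (fun a b h => CTag.zs.inj h)
      cmem_zs _ card_le_five hS5m hS5g
    obtain ⟨i7, hi7, g7, u7⟩ := pickC hm hΦ le_rfl (CTag.g (j + 1) c) (fun a b h => (CTag.g.inj h).2.2)
      (fun i hi => cmem_g (j + 1) c i (by omega) (by omega) hc2 hi) _ card_le_five hS5m hS5g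
    apply hno
    refine copy5 hm hΦ hP hP' (.rs false i1) (.thin (j + 1) κ t 0) (.rs true i3) (.f j i4) (.k (j + 1) c i5)
      (.thin j false t) (.thin (j + 1) κ' t) (.thin j true t) (.zs i6) (.g (j + 1) c i7) hS5 ?_
      (rkey_of_rk_lt (by simp [rkR])) (rkey_of_rk_lt (by simp [rkR])) (rkey_of_rk_lt (by simp [rkR]))
      (rkey_of_rk_lt (by simp [rkR])) (col_nest_O (by omega)) (col_nest_C (by omega) (by omega))
      (ckey_of_rk_lt (by simp [rkC])) (ckey_of_rk_lt (by simp [rkC])) ?_ ?_ ?_ ?_ ?_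
    · exact forall5 (hS3 _ (by simp)) (hS3 _ (by simp)) (hS3 _ (by simp))
        ⟨cmem_zs _ hi6, g6, by simp [rkC]⟩
        ⟨cmem_g _ _ _ (by omega) (by omega) hc2 hi7, g7, by simp [rkC]⟩
    · refine ⟨?_, ?_, ?_, ?_, ?_⟩
      · rw [u1 _ (by simp)]; rfl
      · rw [u1 _ (by simp)]; rfl
      · rw [u1 _ (by simp)]; rfl
      · rw [u6 _ (by simp)]; rfl
      · rw [u7 _ (by simp)]; rfl
    · refine ⟨hQ _ _, hx, hQ _ _, ?_, ?_⟩
      · rw [u6 _ (by simp)]; rfl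
      · rw [u7 _ (by simp)]; simp [M, Mthin, hcdef]
    · refine ⟨?_, ?_, ?_, ?_, ?_⟩
      · rw [u3 _ (by simp)]; rfl
      · rw [u3 _ (by simp)]; rfl
      · rw [u3 _ (by simp)]; rfl
      · rw [u6 _ (by simp)]; rfl
      · rw [u7 _ (by simp)]; rfl
    · refine ⟨?_, ?_, ?_, ?_, ?_⟩
      · rw [u4 _ (by simp)]; simp [M, Mf]
      · rw [u4 _ (by simp)]; simp [M, Mf]
      · rw [u4 _ (by simp)]; simp [M, Mf]
      · rw [u6 _ (by simp)]; rfl
      · rw [u7 _ (by simp)]; simp [M, Mf]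
    · refine ⟨?_, ?_, ?_, ?_, ?_⟩
      · rw [u5 _ (by simp)]; simp [M, Mk]
      · rw [u5 _ (by simp)]; simp [M, Mk, hcdef]
      · rw [u5 _ (by simp)]; simp [M, Mk]
      · rw [u6 _ (by simp)]; rfl
      · rw [u7 _ (by simp)]; simp [M, Mk]
  -- barrier
  have barrier : ∀ (j : ℕ), j + 1 = J → Bt (.thin (j + 1) false t 0) (.thin j false t) = true → False := by
    intro j hj hQ
    have mx := hrowX (j + 1) false (by omega) (by omega) (fun _ => rfl)
    have gx := growX (j + 1) false (by omega) (by omega) (fun _ => rfl)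
    have ma := hcolX j false (by omega)
    have ga := gcolX j false (by omega)
    obtain ⟨c, hcdef⟩ : ∃ c, c = (t / Wr J (j + 1)) % 2 := ⟨_, rfl⟩
    have hc2 : c < 2 := by rw [hcdef]; exact Nat.mod_lt _ (by norm_num)
    obtain ⟨i1, hi1, g1, u1⟩ := pickR hm hΦ le_rfl (RTag.rs false) (fun a b h => (RTag.rs.inj h).2)
      (mem_rs false) {CTag.thin j false t} (by simp) (by simpa using ma) (by simpa using ga)
    obtain ⟨i3, hi3, g3, u3⟩ := pickR hm hΦ le_rfl (RTag.rs true) (fun a b h => (RTag.rs.inj h).2)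
      (mem_rs true) {CTag.thin j false t} (by simp) (by simpa using ma) (by simpa using ga)
    obtain ⟨i4, hi4, g4, u4⟩ := pickR hm hΦ le_rfl (RTag.f j) (fun a b h => (RTag.f.inj h).2)
      (fun i hi => mem_f j i (by omega) hi) {CTag.thin j false t} (by simp) (by simpa using ma) (by simpa using ga)
    obtain ⟨i5, hi5, g5, u5⟩ := pickR hm hΦ le_rfl (RTag.k (j + 1) c) (fun a b h => (RTag.k.inj h).2.2)
      (fun i hi => mem_k (j + 1) c i (by omega) (by omega) hc2 hi) {CTag.thin j false t} (by simp)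
      (by simpa using ma) (by simpa using ga)
    have hS5 : ∀ r ∈ ({RTag.rs false i1, RTag.thin (j + 1) false t 0, RTag.rs true i3, RTag.f j i4,
          RTag.k (j + 1) c i5} : Finset RTag),
        r ∈ rowSet J (81 * m) P ∧ GoodR (flips J (81 * m) P P' Bt) m r ∧ 1 ≤ rkR r :=
      forall5 ⟨mem_rs _ _ hi1, g1, by simp [rkR]⟩ ⟨mx, gx, by simp [rkR]⟩ ⟨mem_rs _ _ hi3, g3, by simp [rkR]⟩
        ⟨mem_f _ _ (by omega) hi4, g4, by simp [rkR]⟩
        ⟨mem_k _ _ _ (by omega) (by omega) hc2 hi5, g5, by simp [rkR]⟩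
    have hS5m := fun r hr => (hS5 r hr).1
    have hS5g := fun r hr => (hS5 r hr).2.1
    obtain ⟨i6, hi6, g6, u6⟩ := pickC hm hΦ le_rfl (CTag.w c) (fun a b h => (CTag.w.inj h).2)
      (fun i hi => cmem_w c i hc2 hi) _ card_le_five hS5m hS5g
    obtain ⟨i7, hi7, g7, u7⟩ := pickC hm hΦ le_rfl CTag.anc (fun a b h => CTag.anc.inj h)
      cmem_anc _ card_le_five hS5m hS5g
    obtain ⟨i8, hi8, g8, u8⟩ := pickC hm hΦ le_rfl CTag.zs (fun a b h => CTag.zs.inj h)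
      cmem_zs _ card_le_five hS5m hS5g
    obtain ⟨i9, hi9, g9, u9⟩ := pickC hm hΦ le_rfl (CTag.g (j + 1) c) (fun a b h => (CTag.g.inj h).2.2)
      (fun i hi => cmem_g (j + 1) c i (by omega) (by omega) hc2 hi) _ card_le_five hS5m hS5g
    apply hno
    refine copy5 hm hΦ hP hP' (.rs false i1) (.thin (j + 1) false t 0) (.rs true i3) (.f j i4) (.k (j + 1) c i5)
      (.thin j false t) (.w c i6) (.anc i7) (.zs i8) (.g (j + 1) c i9) hS5 ?_
      (rkey_of_rk_lt (by simp [rkR])) (rkey_of_rk_lt (by simp [rkR])) (rkey_of_rk_lt (by simp [rkR]))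
      (rkey_of_rk_lt (by simp [rkR])) (ckey_of_rk_lt (by simp [rkC])) (ckey_of_rk_lt (by simp [rkC]))
      (ckey_of_rk_lt (by simp [rkC])) (ckey_of_rk_lt (by simp [rkC])) ?_ ?_ ?_ ?_ ?_
    · exact forall5 ⟨ma, ga, by simp [rkC]⟩ ⟨cmem_w _ _ hc2 hi6, g6, by simp [rkC]⟩
        ⟨cmem_anc _ hi7, g7, by simp [rkC]⟩ ⟨cmem_zs _ hi8, g8, by simp [rkC]⟩
        ⟨cmem_g _ _ _ (by omega) (by omega) hc2 hi9, g9, by simp [rkC]⟩
    · refine ⟨?_, ?_, ?_, ?_, ?_⟩
      · rw [u1 _ (by simp)]; rfl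
      · rw [u6 _ (by simp)]; rfl
      · rw [u7 _ (by simp)]; rfl
      · rw [u8 _ (by simp)]; rfl
      · rw [u9 _ (by simp)]; rfl
    · refine ⟨hQ, ?_, ?_, ?_, ?_⟩
      · rw [u6 _ (by simp)]; rfl
      · rw [u7 _ (by simp)]; simp [M, Mthin, hj]
      · rw [u8 _ (by simp)]; rfl
      · rw [u9 _ (by simp)]; simp [M, Mthin, hcdef]
    · refine ⟨?_, ?_, ?_, ?_, ?_⟩
      · rw [u3 _ (by simp)]; rfl
      · rw [u6 _ (by simp)]; rfl
      · rw [u7 _ (by simp)]; rfl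
      · rw [u8 _ (by simp)]; rfl
      · rw [u9 _ (by simp)]; rfl
    · refine ⟨?_, ?_, ?_, ?_, ?_⟩
      · rw [u4 _ (by simp)]; simp [M, Mf]
      · rw [u6 _ (by simp)]; rfl
      · rw [u7 _ (by simp)]; simp [M, Mf, hj]
      · rw [u8 _ (by simp)]; rfl
      · rw [u9 _ (by simp)]; simp [M, Mf]
    · refine ⟨?_, ?_, ?_, ?_, ?_⟩
      · rw [u5 _ (by simp)]; simp [M, Mk]
      · rw [u6 _ (by simp)]; simp [M, Mk, hj]
      · rw [u7 _ (by simp)]; rfl
      · rw [u8 _ (by simp)]; rfl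
      · rw [u9 _ (by simp)]; simp [M, Mk]
  -- level zero rows
  have htW : t < Wr J 0 := lt_of_lt_of_le htlt (LL_le_Wr J)
  have h0 : ∀ κ, ∃ i, i < 81 * m ∧ GoodR (flips J (81 * m) P P' Bt) m (RTag.thin 0 κ 0 i) ∧
      ∀ κ', Bt (RTag.thin 0 κ 0 i) (CTag.thin 0 κ' t) = true := by
    intro κ
    have hS2 : ∀ c ∈ ({CTag.thin 0 false t, CTag.thin 0 true t} : Finset CTag),
        c ∈ colSet J (81 * m) P' ∧ GoodC (flips J (81 * m) P P' Bt) m c :=
      forall2 ⟨hcolX _ _ (by omega), gcolX _ _ (by omega)⟩ ⟨hcolX _ _ (by omega), gcolX _ _ (by omega)⟩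
    obtain ⟨i, hi, gi, ui⟩ := pickR hm hΦ le_rfl (fun i => RTag.thin 0 κ 0 i)
      (fun a b h => (RTag.thin.inj h).2.2.2)
      (fun i hi => mem_union.2 (Or.inl (mem_rowOthers.2 (Or.inl ⟨rfl, rfl, hi⟩))))
      {CTag.thin 0 false t, CTag.thin 0 true t} (card_le_two.trans (by norm_num)) (fun c hc => (hS2 c hc).1) (fun c hc => (hS2 c hc).2)
    refine ⟨i, hi, gi, fun κ' => ?_⟩
    have hmemS : CTag.thin 0 κ' t ∈ ({CTag.thin 0 false t, CTag.thin 0 true t} : Finset CTag) := by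
      cases κ' <;> simp
    rw [ui _ hmemS]
    have hdiv : t / Wr J 0 = 0 := Nat.div_eq_of_lt htW
    simp [M, Mthin, rel, hdiv]
  choose i0 hi0 gi0 hb0 using h0
  have memi0 : ∀ κ, RTag.thin 0 κ 0 (i0 κ) ∈ rowSet J (81 * m) P := fun κ =>
    mem_union.2 (Or.inl (mem_rowOthers.2 (Or.inl ⟨rfl, rfl, hi0 κ⟩)))
  -- the chain
  have Q : ∀ j, j < J → ∀ κ κ', (j + 1 = J → κ = false) →
      Bt (.thin (j + 1) κ t 0) (.thin j κ' t) = true := by
    intro j
    induction j with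
    | zero =>
      intro hj κ κ' hκ
      exact stepA 0 hj (.thin 0 false 0 (i0 false)) (.thin 0 true 0 (i0 true)) 0 (memi0 _) (memi0 _)
        (gi0 _) (gi0 _) rfl rfl rfl rfl κ κ' hκ (row_zero_O (by omega) htW)
        (row_zero_C (by omega) (by omega) htW) (hb0 _ _) (hb0 _ _)
    | succ j ih =>
      intro hj κ κ' hκ
      have hQ : ∀ κ κ', Bt (.thin (j + 1) κ t 0) (.thin j κ' t) = true := fun κ κ' =>
        ih (by omega) κ κ' (by omega)
      have hP1 := stepB j hj hQ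
      exact stepA (j + 1) hj (.thin (j + 1) false t 0) (.thin (j + 1) true t 0) t
        (hrowX _ _ (by omega) (by omega) (by omega)) (hrowX _ _ (by omega) (by omega) (by omega))
        (growX _ _ (by omega) (by omega) (by omega)) (growX _ _ (by omega) (by omega) (by omega))
        rfl rfl rfl rfl κ κ' hκ (row_nest_O (by omega)) (row_nest_C (by omega) (by omega)) (hP1 _ _) (hP1 _ _)
  obtain ⟨j, hj⟩ : ∃ j, j + 1 = J := ⟨J - 1, by omega⟩
  exact barrier j hj (Q j (by omega) false false (fun _ => rfl))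

/-- **Farness**: if `Bt` differs from `M` on fewer than `m²` cells of `rowSet × colSet`, then `Bt` contains an
ordered copy of `HH` with lines in `rowSet`, `colSet`.
(`J = (h-1)/2`, `D = 81 m`, `m = 2^h`; `h ≥ 21` is far more than needed, all that matters is `J ≥ 1`,
`2^h ≤ 8 * LL J`.)  Order is read through `rkey J`, `ckey J`. -/
theorem far_core (h : ℕ) (hh : 21 ≤ h) (P P' : ℕ) (hP : 81 * 2 ^ h + 61 ≤ P)
    (hP' : 1056 * 2 ^ h + 61 ≤ P') (Bt : RTag → CTag → Bool)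
    (hdiff : ((rowSet ((h - 1) / 2) (81 * 2 ^ h) P ×ˢ colSet ((h - 1) / 2) (81 * 2 ^ h) P').filter
        (fun p => M ((h - 1) / 2) p.1 p.2 ≠ Bt p.1 p.2)).card < (2 ^ h) ^ 2) :
    ∃ (rows : Fin 66 → RTag) (cols : Fin 66 → CTag),
      (∀ i, rows i ∈ rowSet ((h - 1) / 2) (81 * 2 ^ h) P) ∧
      (∀ j, cols j ∈ colSet ((h - 1) / 2) (81 * 2 ^ h) P') ∧
      (∀ i i', i < i' → rkey ((h - 1) / 2) (rows i) < rkey ((h - 1) / 2) (rows i')) ∧
      (∀ j j', j < j' → ckey ((h - 1) / 2) (cols j) < ckey ((h - 1) / 2) (cols j')) ∧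
      ∀ i j, Bt (rows i) (cols j) = HH i j := by
  have hLL : 2 ^ h ≤ 8 * LL ((h - 1) / 2) := by
    unfold LL
    have : h ≤ 3 + (2 * ((h - 1) / 2) - 1) := by omega
    calc 2 ^ h ≤ 2 ^ (3 + (2 * ((h - 1) / 2) - 1)) := Nat.pow_le_pow_right (by norm_num) this
      _ = 8 * 2 ^ (2 * ((h - 1) / 2) - 1) := by rw [pow_add]; norm_num
  exact far_main (2 ^ h) ((h - 1) / 2) P P' (by positivity) (by omega) hLL hP hP' Bt hdiff

end Crest.Agent.Lib.ZigZagB
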