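/- Row 47 (S0066): a copy of the core forces a "seed" position: the row `x` is a leaf line, the column
`y` a last-level column line, and `t / 2 = u / 2`. -/
import Crest.Agent.Lib.ZigZagB.Sets
import Crest.Agent.Lib.ZigZagB.Classify

set_option autoImplicit false

namespace Crest.Agent.Lib.ZigZagB

open Finset

/-- Weak lexicographic comparison on the first two coordinates of a `tk` triple. -/
def Wlex (a b : ℕ × ℕ × ℕ) : Prop := a.1 < b.1 ∨ (a.1 = b.1 ∧ a.2.1 ≤ b.2.1)

/-- The nesting lemma, negative direction: what is strictly between the two brackets of the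
node `v` at the level `l` is below `v`. -/
theorem nest_neg (W : ℕ → ℕ) (J l l' : ℕ) (κ1 κ' κ3 : Bool) (t1 t' t3 g : ℕ) (hg : W l = W l' * g)
    (hw : 0 < W l') (hgpos : 0 < g)
    (h1 : Wlex (tk W J l κ1 t1) (tk W J l' κ' t')) (h3 : Wlex (tk W J l' κ' t') (tk W J l κ3 t3))
    (he : t1 / W l = t3 / W l) : t' / W l = t1 / W l := by
  have hdiv : t' / W l = (t' / W l') / g := by
    rw [hg, Nat.div_div_eq_div_mul]
  have key : (t1 / W l) * g ≤ t' / W l' ∧ t' / W l' < (t1 / W l + 1) * g := by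
    simp only [Wlex, tk, ← he] at h1 h3
    generalize t1 / W l = v at *
    generalize t' / W l' = v' at *
    have e1 : ∀ c, c * W l = (c * g) * W l' := by intro c; rw [hg]; ring
    generalize W l' = w at *
    simp only [e1] at h1 h3
    have L : ∀ a b : ℕ, a * w ≤ b * w → a ≤ b := fun a b h => Nat.le_of_mul_le_mul_right h hw
    have S : ∀ a b : ℕ, a * w < b * w → a < b := fun a b h => Nat.lt_of_mul_lt_mul_right h
    have e2 : (v + 1) * g = v * g + g := by ring
    rw [e2]
    cases κ1 <;> cases κ' <;> cases κ3 <;>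
      simp only [if_true, if_false, Bool.false_eq_true, Nat.zero_le, le_refl, and_true,
        Nat.le_zero_eq, one_ne_zero, and_false, or_false, ← le_iff_lt_or_eq] at h1 h3
    all_goals
      first
      | have h1' := L _ _ h1
      | have h1' := S _ _ h1
    all_goals
      first
      | have h3' := L _ _ h3
      | have h3' := S _ _ h3
    all_goals
      try rw [e2] at h1'
    all_goals
      try rw [e2] at h3'
    all_goals omega
  rw [hdiv]
  exact Nat.div_eq_of_lt_le (by simpa [mul_comm] using key.1) (by simpa [mul_comm] using key.2)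

theorem wlex_of_rkey {J j j' t t' i i' : ℕ} {κ κ' : Bool}
    (h : rkey J (.thin j κ t i) < rkey J (.thin j' κ' t' i')) :
    Wlex (tk (Wr J) J j κ t) (tk (Wr J) J j' κ' t') := by
  simp only [rkey, mkKey_lt_iff] at h
  unfold Wlex
  rcases h with h | ⟨-, h | ⟨h, h' | ⟨h', -⟩⟩⟩
  · omega
  · exact Or.inl h
  · exact Or.inr ⟨h, le_of_lt h'⟩
  · exact Or.inr ⟨h, le_of_eq h'⟩

theorem wlex_of_ckey {J j j' t t' : ℕ} {κ κ' : Bool}
    (h : ckey J (.thin j κ t) < ckey J (.thin j' κ' t')) :
    Wlex (tk (Wc J) J j κ t) (tk (Wc J) J j' κ' t') := by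
  simp only [ckey, mkKey_lt_iff] at h
  unfold Wlex
  rcases h with h | ⟨-, h | ⟨h, h' | ⟨h', -⟩⟩⟩
  · omega
  · exact Or.inl h
  · exact Or.inr ⟨h, le_of_lt h'⟩
  · exact Or.inr ⟨h, le_of_eq h'⟩

theorem rowOK_of_mem {J D P : ℕ} {τ : RTag} (h : τ ∈ rowSet J D P) : RowOK J τ := by
  rw [rowSet, mem_union, mem_rowOthers, mem_image] at h
  rcases h with h | ⟨a, -, rfl⟩
  · cases τ with
    | thin j κ t i =>
      simp only [ValidR] at h
      simp only [RowOK]
      omega
    | _ => trivial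
  · trivial

theorem colOK_of_mem {J D P : ℕ} {τ : CTag} (h : τ ∈ colSet J D P) : ColOK J τ := by
  rw [colSet, mem_union, mem_colOthers, mem_image] at h
  rcases h with h | ⟨a, -, rfl⟩
  · cases τ with
    | thin j κ t =>
      simp only [ValidC] at h
      simp only [ColOK]
      omega
    | _ => trivial
  · trivial

theorem Wr_eq' {J i : ℕ} (h : i + 1 ≤ J) : Wr J i = Wc J i * 2 := by
  unfold Wr Wc
  rw [← pow_succ]
  congr 1
  omega

theorem Wc_eq' {J j : ℕ} (h : j + 1 ≤ J) : Wc J j = Wr J (j + 1) * 2 := by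
  unfold Wr Wc
  rw [← pow_succ]
  congr 1
  omega

theorem Wr_eq4 {J i : ℕ} (h : i + 1 ≤ J) : Wr J i = Wr J (i + 1) * 4 := by
  unfold Wr
  rw [show (4 : ℕ) = 2 ^ 2 by norm_num, ← pow_add]
  congr 1
  omega

theorem Wc_eq4 {J i : ℕ} (h : i + 2 ≤ J) : Wc J i = Wc J (i + 1) * 4 := by
  unfold Wc
  rw [show (4 : ℕ) = 2 ^ 2 by norm_num, ← pow_add]
  congr 1
  omega

theorem div_eq_of_bits {a b W : ℕ} (h1 : a / (W * 2) = b / (W * 2)) (h2 : (a / W) % 2 = (b / W) % 2) :
    a / W = b / W := by
  rw [← Nat.div_div_eq_div_mul, ← Nat.div_div_eq_div_mul] at h1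
  omega

/-- **Seed lemma**. -/
theorem seed {J D P P' : ℕ} {r1 x r3 w1 w2 : RTag} {s1 y s3 z1 z2 : CTag}
    (m1 : r1 ∈ rowSet J D P) (m2 : x ∈ rowSet J D P) (m3 : r3 ∈ rowSet J D P)
    (m4 : w1 ∈ rowSet J D P) (m5 : w2 ∈ rowSet J D P)
    (n1 : s1 ∈ colSet J D P') (n2 : y ∈ colSet J D P') (n3 : s3 ∈ colSet J D P')
    (n4 : z1 ∈ colSet J D P') (n5 : z2 ∈ colSet J D P')
    (hR1 : rkey J r1 < rkey J x) (hR2 : rkey J x < rkey J r3) (hR3 : rkey J r3 < rkey J w1)
    (hR4 : rkey J w1 < rkey J w2)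
    (hC1 : ckey J s1 < ckey J y) (hC2 : ckey J y < ckey J s3) (hC3 : ckey J s3 < ckey J z1)
    (hC4 : ckey J z1 < ckey J z2)
    (a11 : M J r1 s1 = true) (a12 : M J r1 y = true) (a13 : M J r1 s3 = true) (a14 : M J r1 z1 = true)
    (a15 : M J r1 z2 = false)
    (a21 : M J x s1 = true) (a22 : M J x y = false) (a23 : M J x s3 = true) (a24 : M J x z1 = false)
    (a25 : M J x z2 = true)
    (a31 : M J r3 s1 = true) (a32 : M J r3 y = true) (a33 : M J r3 s3 = true) (a34 : M J r3 z1 = true)
    (a35 : M J r3 z2 = false)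
    (a41 : M J w1 s1 = true) (a42 : M J w1 y = false) (a43 : M J w1 s3 = true) (a44 : M J w1 z1 = true)
    (a45 : M J w1 z2 = true)
    (a51 : M J w2 s1 = false) (a52 : M J w2 y = true) (a53 : M J w2 s3 = false) (a54 : M J w2 z1 = true)
    (a55 : M J w2 z2 = true) :
    ∃ t κ u, x = .thin J false t 0 ∧ y = .thin (J - 1) κ u ∧ t < LL J ∧ u < LL J ∧ t / 2 = u / 2 := by
  have cl := classify (rowOK_of_mem m1) (rowOK_of_mem m2) (rowOK_of_mem m3) (rowOK_of_mem m4)
    (rowOK_of_mem m5) (colOK_of_mem n1) (colOK_of_mem n2) (colOK_of_mem n3) (colOK_of_mem n4)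
    (colOK_of_mem n5) (rkey_rk_mono hR1) (rkey_rk_mono hR2) (rkey_rk_mono hR3) (rkey_rk_mono hR4)
    (ckey_rk_mono hC1) (ckey_rk_mono hC2) (ckey_rk_mono hC3) (ckey_rk_mono hC4)
    a11 a12 a13 a14 a15 a21 a22 a23 a24 a25 a31 a32 a33 a34 a35 a41 a42 a43 a44 a45 a51 a52 a53 a54 a55
  rcases cl with ⟨i, κ1, t1, i1, κ3, t3, i3, κx, tx, ix, κy, u, rfl, rfl, rfl, rfl, hbit⟩ |
    ⟨j, κx, tx, ix, κ1, u1, κ3, u3, κy, u, rfl, rfl, rfl, rfl, hbit⟩
  · -- form (A)
    have vx : ValidR J D (.thin (i + 1) κx tx ix) := by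
      rw [rowSet, mem_union, mem_rowOthers, mem_image] at m2
      rcases m2 with h | ⟨a, -, h⟩
      · exact h
      · exact absurd h (by simp)
    have vy : ValidC J D (.thin i κy u) := by
      rw [colSet, mem_union, mem_colOthers, mem_image] at n2
      rcases n2 with h | ⟨a, -, h⟩
      · exact h
      · exact absurd h (by simp)
    simp only [ValidR] at vx
    simp only [ValidC] at vy
    have hiJ : i + 1 ≤ J := by omega
    have e1 : u / Wr J i = t1 / Wr J i := by
      simp only [M, Mthin, decide_eq_true_eq, rel] at a12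
      rcases a12 with h | h
      · exact h.2
      · omega
    have e3 : u / Wr J i = t3 / Wr J i := by
      simp only [M, Mthin, decide_eq_true_eq, rel] at a32
      rcases a32 with h | h
      · exact h.2
      · omega
    have hnest : tx / Wr J i = t1 / Wr J i :=
      nest_neg (Wr J) J i (i + 1) κ1 κx κ3 t1 tx t3 4 (Wr_eq4 hiJ) (Wr_pos _ _) (by norm_num)
        (wlex_of_rkey hR1) (wlex_of_rkey hR2) (e1.symm.trans e3)
    have hcc : tx / Wc J i = u / Wc J i := by
      refine div_eq_of_bits ?_ hbit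
      rw [← Wr_eq' hiJ]
      exact hnest.trans e1.symm
    have hJ : i + 1 = J := by
      by_contra hne
      simp only [M, Mthin, decide_eq_false_iff_not, rel, not_or, not_and] at a22
      exact a22.2 trivial hne hcc
    subst hJ
    rcases vx with ⟨h, -⟩ | ⟨-, -, h3, rfl, h5⟩
    · omega
    · have h5' := h5 rfl
      subst h5'
      refine ⟨tx, κy, u, rfl, by simp, h3, vy.2, ?_⟩
      have : Wc (i + 1) i = 2 := by
        unfold Wc
        rw [show 2 * (i + 1) - 1 - 2 * i = 1 by omega]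
        norm_num
      rwa [this] at hcc
  · -- form (B): impossible
    exfalso
    have vy : ValidC J D (.thin (j + 1) κy u) := by
      rw [colSet, mem_union, mem_colOthers, mem_image] at n2
      rcases n2 with h | ⟨a, -, h⟩
      · exact h
      · exact absurd h (by simp)
    simp only [ValidC] at vy
    have hjJ : j + 1 ≤ J := by omega
    have e1 : tx / Wc J j = u1 / Wc J j := by
      simp only [M, Mthin, decide_eq_true_eq, rel] at a21
      rcases a21 with h | h
      · omega
      · exact h.2.2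
    have e3 : tx / Wc J j = u3 / Wc J j := by
      simp only [M, Mthin, decide_eq_true_eq, rel] at a23
      rcases a23 with h | h
      · omega
      · exact h.2.2
    have vj : j + 2 ≤ J := by omega
    have hnest : u / Wc J j = u1 / Wc J j :=
      nest_neg (Wc J) J j (j + 1) κ1 κy κ3 u1 u u3 4 (Wc_eq4 vj) (Wc_pos _ _) (by norm_num)
        (wlex_of_ckey hC1) (wlex_of_ckey hC2) (e1.symm.trans e3)
    have hcc : tx / Wr J (j + 1) = u / Wr J (j + 1) := by
      refine div_eq_of_bits ?_ hbit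
      rw [← Wc_eq' hjJ]
      exact e1.trans hnest.symm
    simp only [M, Mthin, decide_eq_false_iff_not, rel, not_or, not_and] at a22
    exact a22.1 trivial hcc.symm

end Crest.Agent.Lib.ZigZagB
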