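/- Row 47 (S0066): enumeration of the tags, copy count and the big case (assuming `far_core`). -/
import Crest.Agent.Lib.ZigZagB.Seed
import Crest.Agent.Lib.ZigZagB.Far
import Crest.Prelude.Def_OrderedMatrix

set_option autoImplicit false

namespace Crest.Agent.Lib.ZigZagB

open Finset
open Crest.CombinatoricsR.OrderedMatrix

/-- Enumerate a finset increasingly along an injective key. -/
theorem exists_enum {T K : Type} [LinearOrder K] (key : T → K) (hk : Function.Injective key)
    (R : Finset T) (n : ℕ) (hn : R.card = n) :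
    ∃ ρ : Fin n → T, (∀ i, ρ i ∈ R) ∧ (∀ i i', i < i' → key (ρ i) < key (ρ i')) ∧
      (∀ τ ∈ R, ∃ i, ρ i = τ) := by
  classical
  have hs : (R.image key).card = n := by
    rw [card_image_of_injective _ hk, hn]
  have h1 : ∀ i, ∃ τ ∈ R, key τ = (R.image key).orderEmbOfFin hs i := by
    intro i
    have := Finset.orderEmbOfFin_mem (R.image key) hs i
    rw [mem_image] at this
    obtain ⟨τ, hτ, e⟩ := this
    exact ⟨τ, hτ, e⟩
  choose ρ hρ1 hρ2 using h1
  refine ⟨ρ, hρ1, ?_, ?_⟩
  · intro i i' hii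
    rw [hρ2, hρ2]
    exact ((R.image key).orderEmbOfFin hs).strictMono hii
  · intro τ hτ
    have h2 : key τ ∈ Set.range ((R.image key).orderEmbOfFin hs) := by
      rw [Finset.range_orderEmbOfFin]
      simpa using mem_image_of_mem key hτ
    obtain ⟨i, hi⟩ := h2
    refine ⟨i, hk ?_⟩
    rw [hρ2, hi]

/-- Counting copies through one seed position. -/
theorem count_le_of_seed {n : ℕ} (H : Fin 66 → Fin 66 → Bool) (A : Fin n → Fin n → Bool)
    (S : Finset (Fin n × Fin n)) (i0 j0 : Fin 66)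
    (hS : ∀ f g : Fin 66 → Fin n, StrictMono f → StrictMono g →
      (∀ i j, A (f i) (g j) = H i j) → (f i0, g j0) ∈ S) :
    orderedCopyCount H A ≤ S.card * n ^ 130 := by
  classical
  unfold orderedCopyCount
  let φ : {rc : (Fin 66 → Fin n) × (Fin 66 → Fin n) //
      StrictMono rc.1 ∧ StrictMono rc.2 ∧ ∀ i j : Fin 66, A (rc.1 i) (rc.2 j) = H i j} →
      S × (Fin 65 → Fin n) × (Fin 65 → Fin n) :=
    fun x => (⟨(x.1.1 i0, x.1.2 j0), hS _ _ x.2.1 x.2.2.1 x.2.2.2⟩,
      fun k => x.1.1 (i0.succAbove k), fun k => x.1.2 (j0.succAbove k))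
  have hφ : Function.Injective φ := by
    intro x y hxy
    have h0 : (x.1.1 i0, x.1.2 j0) = (y.1.1 i0, y.1.2 j0) :=
      congrArg (fun z : S × (Fin 65 → Fin n) × (Fin 65 → Fin n) => z.1.1) hxy
    have h1 : (fun k => x.1.1 (i0.succAbove k)) = (fun k => y.1.1 (i0.succAbove k)) :=
      congrArg (fun z : S × (Fin 65 → Fin n) × (Fin 65 → Fin n) => z.2.1) hxy
    have h2 : (fun k => x.1.2 (j0.succAbove k)) = (fun k => y.1.2 (j0.succAbove k)) :=
      congrArg (fun z : S × (Fin 65 → Fin n) × (Fin 65 → Fin n) => z.2.2) hxy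
    refine Subtype.ext (Prod.ext ?_ ?_)
    · funext i
      rcases Fin.eq_self_or_eq_succAbove i0 i with rfl | ⟨k, rfl⟩
      · exact congrArg Prod.fst h0
      · exact congrFun h1 k
    · funext j
      rcases Fin.eq_self_or_eq_succAbove j0 j with rfl | ⟨k, rfl⟩
      · exact congrArg Prod.snd h0
      · exact congrFun h2 k
  have h3 := Fintype.card_le_of_injective φ hφ
  refine h3.trans (le_of_eq ?_)
  simp only [Fintype.card_prod, Fintype.card_coe, Fintype.card_fun, Fintype.card_fin]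
  ring

/-- The tag pairs of the seed positions. -/
noncomputable def seedTags (J : ℕ) : Finset (RTag × CTag) :=
  (range (LL J) ×ˢ (univ : Finset Bool) ×ˢ range 2).image
    (fun p => (RTag.thin J false p.1 0, CTag.thin (J - 1) p.2.1 (2 * (p.1 / 2) + p.2.2)))

theorem card_seedTags_le (J : ℕ) : (seedTags J).card ≤ 4 * LL J := by
  refine card_image_le.trans ?_
  simp
  omega

theorem mem_seedTags {J t u : ℕ} {κ : Bool} (ht : t < LL J) (hu : t / 2 = u / 2) :
    (RTag.thin J false t 0, CTag.thin (J - 1) κ u) ∈ seedTags J := by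
  rw [seedTags, mem_image]
  refine ⟨(t, κ, u % 2), ?_, ?_⟩
  · simp only [mem_product, mem_range, mem_univ, true_and]
    exact ⟨ht, Nat.mod_lt _ (by norm_num)⟩
  · simp only [Prod.mk.injEq, true_and, CTag.thin.injEq]
    omega

/-- numeric bounds for the padding. -/
theorem LL_bound {h : ℕ} (hh : 3 ≤ h) : 4 * LL ((h - 1) / 2) ≤ 2 ^ h := by
  unfold LL
  rw [show (4 : ℕ) = 2 ^ 2 by norm_num, ← pow_add]
  exact Nat.pow_le_pow_right (by norm_num) (by omega)

/-- padding: rows -/
theorem pad_row_bound {h : ℕ} (hh : 21 ≤ h) :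
    (rowOthers ((h - 1) / 2) (81 * 2 ^ h)).card + (81 * 2 ^ h + 61) ≤ (386 * h + 2) * 2 ^ h := by
  have h1 := card_rowOthers_le ((h - 1) / 2) (81 * 2 ^ h)
  have h2 := LL_bound (h := h) (by omega)
  set J := (h - 1) / 2 with hJ
  have hJ2 : 2 * J + 1 ≤ h := by omega
  have hm : 1 ≤ 2 ^ h := Nat.one_le_two_pow
  set m := 2 ^ h with hmdef
  set L := LL J with hL
  have h3 : 2 * J * L * 2 ≤ J * m := by nlinarith
  have h4 : (5 + 5 * J) * (81 * m) = 405 * m + 405 * (J * m) := by ring
  have h5 : (386 * h + 2) * m = 386 * (h * m) + 2 * m := by ring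
  have h6 : (2 * J + 1) * m ≤ h * m := Nat.mul_le_mul_right _ hJ2
  have h7 : (2 * J + 1) * m = 2 * (J * m) + m := by ring
  have h8 : 21 * m ≤ h * m := Nat.mul_le_mul_right _ hh
  rw [h4] at h1
  omega

/-- padding: columns -/
theorem pad_col_bound {h : ℕ} (hh : 21 ≤ h) :
    (colOthers ((h - 1) / 2) (81 * 2 ^ h)).card + (1056 * 2 ^ h + 61) ≤ (386 * h + 2) * 2 ^ h := by
  have h1 := card_colOthers_le ((h - 1) / 2) (81 * 2 ^ h)
  have h2 := LL_bound (h := h) (by omega)
  set J := (h - 1) / 2 with hJ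
  have hJ2 : 2 * J + 1 ≤ h := by omega
  have hm : 1 ≤ 2 ^ h := Nat.one_le_two_pow
  set m := 2 ^ h with hmdef
  set L := LL J with hL
  have h3 : 2 * J * L * 2 ≤ J * m := by nlinarith
  have h4 : (6 + 5 * J) * (81 * m) = 486 * m + 405 * (J * m) := by ring
  have h5 : (386 * h + 2) * m = 386 * (h * m) + 2 * m := by ring
  have h6 : (2 * J + 1) * m ≤ h * m := Nat.mul_le_mul_right _ hJ2
  have h7 : (2 * J + 1) * m = 2 * (J * m) + m := by ring
  have h8 : 21 * m ≤ h * m := Nat.mul_le_mul_right _ hh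
  rw [h4] at h1
  omega

/-- The big case. -/
theorem big_case (h : ℕ) (hh : 21 ≤ h) :
    ∃ A : Fin ((386 * h + 2) * 2 ^ h) → Fin ((386 * h + 2) * 2 ^ h) → Bool,
      (∀ B : Fin ((386 * h + 2) * 2 ^ h) → Fin ((386 * h + 2) * 2 ^ h) → Bool,
        orderedCopyCount HH B = 0 →
          ((386 * (h : ℝ) + 2) ^ 2)⁻¹ * (((386 * h + 2) * 2 ^ h : ℕ) : ℝ) ^ 2 ≤
            ((Finset.univ.filter (fun rc : Fin ((386 * h + 2) * 2 ^ h) × Fin ((386 * h + 2) * 2 ^ h) =>
              A rc.1 rc.2 ≠ B rc.1 rc.2)).card : ℝ)) ∧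
      (orderedCopyCount HH A : ℝ) /
          (((386 * h + 2) * 2 ^ h : ℕ) : ℝ) ^ 132 ≤
        ((386 * (h : ℝ) + 2) ^ 2)⁻¹ * (2 : ℝ)⁻¹ ^ h := by
  classical
  set J := (h - 1) / 2 with hJ
  set D := 81 * 2 ^ h with hD
  set n := (386 * h + 2) * 2 ^ h with hn
  have hnpos : 0 < n := by positivity
  have hrow := pad_row_bound hh
  have hcol := pad_col_bound hh
  rw [← hJ, ← hD, ← hn] at hrow hcol
  set P := n - (rowOthers J D).card with hP
  set P' := n - (colOthers J D).card with hP'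
  have hP1 : 81 * 2 ^ h + 61 ≤ P := by omega
  have hP2 : 1056 * 2 ^ h + 61 ≤ P' := by omega
  have hc1 : (rowSet J D P).card = n := by rw [card_rowSet]; omega
  have hc2 : (colSet J D P').card = n := by rw [card_colSet]; omega
  obtain ⟨ρ, hρ1, hρ2, hρ3⟩ := exists_enum (rkey J) (rkey_injective J) _ n hc1
  obtain ⟨γ, hγ1, hγ2, hγ3⟩ := exists_enum (ckey J) (ckey_injective J) _ n hc2
  haveI : Nonempty (Fin n) := ⟨⟨0, hnpos⟩⟩
  have hρinj : Function.Injective ρ := by
    intro i i' he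
    rcases lt_trichotomy i i' with hlt | heq | hlt
    · exact absurd (hρ2 _ _ hlt) (by rw [he]; exact lt_irrefl _)
    · exact heq
    · exact absurd (hρ2 _ _ hlt) (by rw [he]; exact lt_irrefl _)
  have hγinj : Function.Injective γ := by
    intro i i' he
    rcases lt_trichotomy i i' with hlt | heq | hlt
    · exact absurd (hγ2 _ _ hlt) (by rw [he]; exact lt_irrefl _)
    · exact heq
    · exact absurd (hγ2 _ _ hlt) (by rw [he]; exact lt_irrefl _)
  have hρmono : ∀ i i', rkey J (ρ i) < rkey J (ρ i') → i < i' := by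
    intro i i' hlt
    rcases lt_trichotomy i i' with h1 | rfl | h1
    · exact h1
    · exact absurd hlt (lt_irrefl _)
    · exact absurd (hρ2 _ _ h1) (not_lt_of_gt hlt)
  have hγmono : ∀ i i', ckey J (γ i) < ckey J (γ i') → i < i' := by
    intro i i' hlt
    rcases lt_trichotomy i i' with h1 | rfl | h1
    · exact h1
    · exact absurd hlt (lt_irrefl _)
    · exact absurd (hγ2 _ _ h1) (not_lt_of_gt hlt)
  let ρinv : RTag → Fin n := Function.invFun ρ
  let γinv : CTag → Fin n := Function.invFun γ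
  have hρl : ∀ i, ρinv (ρ i) = i := Function.leftInverse_invFun hρinj
  have hγl : ∀ i, γinv (γ i) = i := Function.leftInverse_invFun hγinj
  have hρr : ∀ τ ∈ rowSet J D P, ρ (ρinv τ) = τ := fun τ hτ => Function.invFun_eq (hρ3 τ hτ)
  have hγr : ∀ τ ∈ colSet J D P', γ (γinv τ) = τ := fun τ hτ => Function.invFun_eq (hγ3 τ hτ)
  let A : Fin n → Fin n → Bool := fun i j => M J (ρ i) (γ j)
  have hNpos : (0 : ℝ) < 386 * (h : ℝ) + 2 := by positivity
  have hmpos : (0 : ℝ) < 2 ^ h := by positivity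
  have hncast : ((n : ℕ) : ℝ) = (386 * (h : ℝ) + 2) * 2 ^ h := by
    rw [hn]; push_cast; ring
  refine ⟨A, ?_, ?_⟩
  · -- far
    intro B hB
    have hfar : (2 ^ h) ^ 2 ≤ (Finset.univ.filter (fun rc : Fin n × Fin n =>
        A rc.1 rc.2 ≠ B rc.1 rc.2)).card := by
      by_contra hcon
      push Not at hcon
      let Bt : RTag → CTag → Bool := fun τ σ => B (ρinv τ) (γinv σ)
      have hdiff : ((rowSet J D P ×ˢ colSet J D P').filter
          (fun p => M J p.1 p.2 ≠ Bt p.1 p.2)).card < (2 ^ h) ^ 2 := by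
        refine lt_of_le_of_lt ?_ hcon
        refine Finset.card_le_card_of_injOn (fun p => (ρinv p.1, γinv p.2)) ?_ ?_
        · intro p hp
          simp only [coe_filter, mem_product, Set.mem_setOf_eq] at hp
          simp only [coe_filter, mem_univ, true_and, Set.mem_setOf_eq, A]
          rw [hρr _ hp.1.1, hγr _ hp.1.2]
          exact hp.2
        · intro p hp q hq hpq
          simp only [coe_filter, mem_product, Set.mem_setOf_eq] at hp hq
          have h1 : ρinv p.1 = ρinv q.1 := congrArg Prod.fst hpq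
          have h2 : γinv p.2 = γinv q.2 := congrArg Prod.snd hpq
          refine Prod.ext ?_ ?_
          · rw [← hρr _ hp.1.1, h1, hρr _ hq.1.1]
          · rw [← hγr _ hp.1.2, h2, hγr _ hq.1.2]
      obtain ⟨rows, cols, hr, hc, hrm, hcm, hcopy⟩ := far_core h hh P P' hP1 hP2 Bt hdiff
      have hnon : Nonempty {rc : (Fin 66 → Fin n) × (Fin 66 → Fin n) //
          StrictMono rc.1 ∧ StrictMono rc.2 ∧ ∀ i j : Fin 66, B (rc.1 i) (rc.2 j) = HH i j} := by
        refine ⟨⟨(fun i => ρinv (rows i), fun j => γinv (cols j)), ?_, ?_, ?_⟩⟩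
        · intro i i' hlt
          apply hρmono
          rw [hρr _ (hr i), hρr _ (hr i')]
          exact hrm _ _ hlt
        · intro i i' hlt
          apply hγmono
          rw [hγr _ (hc i), hγr _ (hc i')]
          exact hcm _ _ hlt
        · intro i j
          exact hcopy i j
      unfold orderedCopyCount at hB
      rw [Fintype.card_eq_zero_iff] at hB
      exact hB.false hnon.some
    have hcast : (((2 ^ h) ^ 2 : ℕ) : ℝ) ≤ ((Finset.univ.filter (fun rc : Fin n × Fin n =>
        A rc.1 rc.2 ≠ B rc.1 rc.2)).card : ℝ) := by exact_mod_cast hfar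
    refine le_trans (le_of_eq ?_) hcast
    rw [hncast]
    push_cast
    field_simp
  · -- few copies
    let S : Finset (Fin n × Fin n) := (seedTags J).image (fun p => (ρinv p.1, γinv p.2))
    have hS : ∀ f g : Fin 66 → Fin n, StrictMono f → StrictMono g →
        (∀ i j, A (f i) (g j) = HH i j) → (f ⟨62, by norm_num⟩, g ⟨62, by norm_num⟩) ∈ S := by
      intro f g hf hg hcopy
      have hH : ∀ i j : Fin 66, M J (ρ (f i)) (γ (g j)) = HH i j := hcopy
      have kR : ∀ a b : Fin 66, a < b → rkey J (ρ (f a)) < rkey J (ρ (f b)) :=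
        fun a b hab => hρ2 _ _ (hf hab)
      have kC : ∀ a b : Fin 66, a < b → ckey J (γ (g a)) < ckey J (γ (g b)) :=
        fun a b hab => hγ2 _ _ (hg hab)
      obtain ⟨t, κ, u, hx, hy, ht, hu, htu⟩ := seed (J := J) (D := D) (P := P) (P' := P')
        (r1 := ρ (f ⟨61, by norm_num⟩)) (x := ρ (f ⟨62, by norm_num⟩)) (r3 := ρ (f ⟨63, by norm_num⟩))
        (w1 := ρ (f ⟨64, by norm_num⟩)) (w2 := ρ (f ⟨65, by norm_num⟩))
        (s1 := γ (g ⟨61, by norm_num⟩)) (y := γ (g ⟨62, by norm_num⟩)) (s3 := γ (g ⟨63, by norm_num⟩))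
        (z1 := γ (g ⟨64, by norm_num⟩)) (z2 := γ (g ⟨65, by norm_num⟩))
        (hρ1 _) (hρ1 _) (hρ1 _) (hρ1 _) (hρ1 _) (hγ1 _) (hγ1 _) (hγ1 _) (hγ1 _) (hγ1 _)
        (kR _ _ (by decide)) (kR _ _ (by decide)) (kR _ _ (by decide)) (kR _ _ (by decide))
        (kC _ _ (by decide)) (kC _ _ (by decide)) (kC _ _ (by decide)) (kC _ _ (by decide))
        ((hH _ _).trans (by decide)) ((hH _ _).trans (by decide)) ((hH _ _).trans (by decide))
        ((hH _ _).trans (by decide)) ((hH _ _).trans (by decide))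
        ((hH _ _).trans (by decide)) ((hH _ _).trans (by decide)) ((hH _ _).trans (by decide))
        ((hH _ _).trans (by decide)) ((hH _ _).trans (by decide))
        ((hH _ _).trans (by decide)) ((hH _ _).trans (by decide)) ((hH _ _).trans (by decide))
        ((hH _ _).trans (by decide)) ((hH _ _).trans (by decide))
        ((hH _ _).trans (by decide)) ((hH _ _).trans (by decide)) ((hH _ _).trans (by decide))
        ((hH _ _).trans (by decide)) ((hH _ _).trans (by decide))
        ((hH _ _).trans (by decide)) ((hH _ _).trans (by decide)) ((hH _ _).trans (by decide))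
        ((hH _ _).trans (by decide)) ((hH _ _).trans (by decide))
      rw [mem_image]
      refine ⟨(RTag.thin J false t 0, CTag.thin (J - 1) κ u), mem_seedTags ht htu, ?_⟩
      simp only
      rw [← hx, ← hy, hρl, hγl]
    have h1 := count_le_of_seed HH A S ⟨62, by norm_num⟩ ⟨62, by norm_num⟩ hS
    have h2 : S.card ≤ 2 ^ h :=
      card_image_le.trans ((card_seedTags_le J).trans (LL_bound (by omega)))
    have h3 : orderedCopyCount HH A ≤ 2 ^ h * n ^ 130 := h1.trans (Nat.mul_le_mul_right _ h2)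
    have h4 : ((orderedCopyCount HH A : ℕ) : ℝ) ≤ 2 ^ h * (n : ℝ) ^ 130 := by exact_mod_cast h3
    have hnR : (0 : ℝ) < (n : ℝ) := by exact_mod_cast hnpos
    rw [div_le_iff₀ (by positivity)]
    refine h4.trans (le_of_eq ?_)
    have e : (n : ℝ) ^ 132 = (n : ℝ) ^ 130 * (n : ℝ) ^ 2 := by ring
    rw [e, hncast]
    have h5 : (2 : ℝ)⁻¹ ^ h = ((2 : ℝ) ^ h)⁻¹ := by rw [inv_pow]
    rw [h5]
    field_simp

end Crest.Agent.Lib.ZigZagB
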