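/- Row 47 (S0066), part of Mod FAR: flip counts; a core copy on lines with few flips extends to a full copy of `HH`
by adding padding lines. -/
import Crest.Agent.Lib.ZigZagB.Sets

set_option autoImplicit false

namespace Crest.Agent.Lib.ZigZagB

open Finset

section Flips
variable {α β : Type} [DecidableEq α] [DecidableEq β]

/-- number of flips on a row -/
def rowFlips (F : Finset (α × β)) (τ : α) : ℕ := (F.filter (fun p => p.1 = τ)).card
/-- number of flips on a column -/
def colFlips (F : Finset (α × β)) (σ : β) : ℕ := (F.filter (fun p => p.2 = σ)).card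

/-- the rows hit by flips on a column -/
def rowsHit (F : Finset (α × β)) (σ : β) : Finset α := (F.filter (fun p => p.2 = σ)).image Prod.fst
/-- the columns hit by flips on a row -/
def colsHit (F : Finset (α × β)) (τ : α) : Finset β := (F.filter (fun p => p.1 = τ)).image Prod.snd

theorem card_rowsHit_le (F : Finset (α × β)) (σ : β) : (rowsHit F σ).card ≤ colFlips F σ :=
  card_image_le

theorem card_colsHit_le (F : Finset (α × β)) (τ : α) : (colsHit F τ).card ≤ rowFlips F τ :=
  card_image_le

theorem mem_rowsHit {F : Finset (α × β)} {τ : α} {σ : β} : τ ∈ rowsHit F σ ↔ (τ, σ) ∈ F := by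
  simp only [rowsHit, mem_image, mem_filter, Prod.exists, exists_and_right, exists_eq_right]

theorem mem_colsHit {F : Finset (α × β)} {τ : α} {σ : β} : σ ∈ colsHit F τ ↔ (τ, σ) ∈ F := by
  simp only [colsHit, mem_image, mem_filter, Prod.exists, exists_eq_right]

/-- A set of rows all having at least `θ` flips: `|S| θ ≤ |F|`. -/
theorem card_mul_le_of_rowFlips (F : Finset (α × β)) (S : Finset α) (θ : ℕ)
    (h : ∀ τ ∈ S, θ ≤ rowFlips F τ) : S.card * θ ≤ F.card := by
  have h1 : ∑ τ ∈ S, rowFlips F τ ≤ F.card := by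
    have : ∑ τ ∈ S, rowFlips F τ = (S.biUnion (fun τ => F.filter (fun p => p.1 = τ))).card := by
      rw [card_biUnion]
      · rfl
      · intro a _ b _ hab
        rw [Function.onFun, disjoint_left]
        intro p hp hp'
        rw [mem_filter] at hp hp'
        exact hab (hp.2.symm.trans hp'.2)
    rw [this]
    refine card_le_card ?_
    intro p hp
    rw [mem_biUnion] at hp
    obtain ⟨_, _, hp⟩ := hp
    exact (mem_filter.1 hp).1
  calc S.card * θ = ∑ _τ ∈ S, θ := by simp
    _ ≤ ∑ τ ∈ S, rowFlips F τ := sum_le_sum h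
    _ ≤ _ := h1

/-- A set of columns all having at least `θ` flips: `|S| θ ≤ |F|`. -/
theorem card_mul_le_of_colFlips (F : Finset (α × β)) (S : Finset β) (θ : ℕ)
    (h : ∀ τ ∈ S, θ ≤ colFlips F τ) : S.card * θ ≤ F.card := by
  have h1 : ∑ τ ∈ S, colFlips F τ ≤ F.card := by
    have : ∑ τ ∈ S, colFlips F τ = (S.biUnion (fun τ => F.filter (fun p => p.2 = τ))).card := by
      rw [card_biUnion]
      · rfl
      · intro a _ b _ hab
        rw [Function.onFun, disjoint_left]
        intro p hp hp'
        rw [mem_filter] at hp hp'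
        exact hab (hp.2.symm.trans hp'.2)
    rw [this]
    refine card_le_card ?_
    intro p hp
    rw [mem_biUnion] at hp
    obtain ⟨_, _, hp⟩ := hp
    exact (mem_filter.1 hp).1
  calc S.card * θ = ∑ _τ ∈ S, θ := by simp
    _ ≤ ∑ τ ∈ S, colFlips F τ := sum_le_sum h
    _ ≤ _ := h1

/-- the bad rows of `S` -/
def badRows (F : Finset (α × β)) (S : Finset α) (θ : ℕ) : Finset α := S.filter (fun τ => θ ≤ rowFlips F τ)
/-- the bad columns of `S` -/
def badCols (F : Finset (α × β)) (S : Finset β) (θ : ℕ) : Finset β := S.filter (fun τ => θ ≤ colFlips F τ)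

theorem card_badRows_mul_le (F : Finset (α × β)) (S : Finset α) (θ : ℕ) :
    (badRows F S θ).card * θ ≤ F.card :=
  card_mul_le_of_rowFlips _ _ _ (fun _ h => (mem_filter.1 h).2)

theorem card_badCols_mul_le (F : Finset (α × β)) (S : Finset β) (θ : ℕ) :
    (badCols F S θ).card * θ ≤ F.card :=
  card_mul_le_of_colFlips _ _ _ (fun _ h => (mem_filter.1 h).2)

end Flips

/-- The flips of `Bt` with respect to `M J`. -/
noncomputable def flips (J : ℕ) (R : Finset RTag) (C : Finset CTag) (Bt : RTag → CTag → Bool) : Finset (RTag × CTag) :=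
  (R ×ˢ C).filter (fun p => M J p.1 p.2 ≠ Bt p.1 p.2)

theorem eq_of_not_mem_flips {J : ℕ} {R : Finset RTag} {C : Finset CTag} {Bt : RTag → CTag → Bool}
    {τ : RTag} {σ : CTag} (h : τ ∈ R) (h' : σ ∈ C) (hn : (τ, σ) ∉ flips J R C Bt) :
    Bt τ σ = M J τ σ := by
  by_contra hcon
  exact hn (mem_filter.2 ⟨mem_product.2 ⟨h, h'⟩, fun he => hcon he.symm⟩)

theorem M_pad_row (J i : ℕ) (σ : CTag) : M J (.pad i) σ = true := rfl

theorem M_pad_col (J i : ℕ) (τ : RTag) : M J τ (.pad i) = true := by
  cases τ <;> first | rfl | (simp [M, Mrs, Mthin, Mzs, Mf, Mg, Mk])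

theorem pad_mem_rowSet {J D P i : ℕ} (h : i < P) : RTag.pad i ∈ rowSet J D P :=
  mem_union_right _ (mem_image_of_mem _ (mem_range.2 h))

theorem pad_mem_colSet {J D P i : ℕ} (h : i < P) : CTag.pad i ∈ colSet J D P :=
  mem_union_right _ (mem_image_of_mem _ (mem_range.2 h))

theorem exists_pick (k : ℕ) (S : Finset ℕ) (h : k ≤ S.card) :
    ∃ e : Fin k → ℕ, (∀ i, e i ∈ S) ∧ StrictMono e := by
  obtain ⟨t, ht, hc⟩ := Finset.exists_subset_card_eq h
  refine ⟨t.orderEmbOfFin hc, fun i => ht (Finset.orderEmbOfFin_mem t hc i), (t.orderEmbOfFin hc).strictMono⟩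

/-- **Extension by padding lines.** -/
theorem extend_pad {J D P P' m : ℕ} (hm : 0 < m) (hP : 81 * m + 61 ≤ P) (hP' : 1056 * m + 61 ≤ P')
    (Bt : RTag → CTag → Bool)
    (hF : (flips J (rowSet J D P) (colSet J D P') Bt).card < m ^ 2)
    (r : Fin 5 → RTag) (s : Fin 5 → CTag)
    (hr : ∀ i, r i ∈ rowSet J D P) (hs : ∀ j, s j ∈ colSet J D P')
    (hr0 : ∀ i, 1 ≤ rkR (r i)) (hs0 : ∀ j, 1 ≤ rkC (s j))
    (hr2 : ∀ i i', i < i' → rkey J (r i) < rkey J (r i'))
    (hs2 : ∀ j j', j < j' → ckey J (s j) < ckey J (s j'))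
    (hgr : ∀ i, rowFlips (flips J (rowSet J D P) (colSet J D P') Bt) (r i) < 16 * m)
    (hgs : ∀ j, colFlips (flips J (rowSet J D P) (colSet J D P') Bt) (s j) < 16 * m)
    (hcore : ∀ i j, Bt (r i) (s j) = core i j) :
    ∃ (rows : Fin 66 → RTag) (cols : Fin 66 → CTag),
      (∀ i, rows i ∈ rowSet J D P) ∧
      (∀ j, cols j ∈ colSet J D P') ∧
      (∀ i i', i < i' → rkey J (rows i) < rkey J (rows i')) ∧
      (∀ j j', j < j' → ckey J (cols j) < ckey J (cols j')) ∧
      ∀ i j, Bt (rows i) (cols j) = HH i j := by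
  classical
  set F := flips J (rowSet J D P) (colSet J D P') Bt with hFdef
  -- pad rows
  let excl : Finset RTag := (univ : Finset (Fin 5)).biUnion (fun j => rowsHit F (s j))
  have hexcl : excl.card ≤ 5 * (16 * m) := by
    refine card_biUnion_le.trans ?_
    calc ∑ j : Fin 5, (rowsHit F (s j)).card ≤ ∑ _j : Fin 5, 16 * m :=
          sum_le_sum (fun j _ => (card_rowsHit_le F _).trans (hgs j).le)
      _ = _ := by simp
  let bad : Finset RTag := badRows F (rowSet J D P) (16 * m)
  have hbad : bad.card < m := by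
    by_contra hcon
    push Not at hcon
    have h1 : bad.card * (16 * m) ≤ F.card := card_badRows_mul_le F (rowSet J D P) (16 * m)
    have h2 : m * (16 * m) ≤ bad.card * (16 * m) := Nat.mul_le_mul_right _ hcon
    have h3 : m ^ 2 ≤ m * (16 * m) := by nlinarith
    omega
  let candR : Finset ℕ := (range P).filter (fun i => RTag.pad i ∉ excl ∧ RTag.pad i ∉ bad)
  have hcandR : 61 ≤ candR.card := by
    have h1 : (range P \ candR).image RTag.pad ⊆ excl ∪ bad := by
      intro τ hτ
      obtain ⟨i, hi, rfl⟩ := mem_image.1 hτ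
      rw [mem_sdiff, mem_filter] at hi
      rw [mem_union]
      by_contra hcon
      push Not at hcon
      exact hi.2 ⟨hi.1, hcon.1, hcon.2⟩
    have h2 := card_le_card h1
    rw [card_image_of_injective _ (fun a b hab => by simpa using hab)] at h2
    have h4 := card_union_le excl bad
    have h5 : (range P \ candR).card = P - candR.card := by
      rw [card_sdiff_of_subset (filter_subset _ _), card_range]
    have h6 : candR.card ≤ P := by
      simpa using card_le_card (filter_subset _ (range P))
    omega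
  obtain ⟨eR, heR1, heR2⟩ := exists_pick 61 candR hcandR
  have heR3 : ∀ i, eR i < P ∧ RTag.pad (eR i) ∉ excl ∧ RTag.pad (eR i) ∉ bad := by
    intro i
    have := heR1 i
    rw [mem_filter, mem_range] at this
    exact this
  let rows : Fin 66 → RTag := fun i =>
    if h : i.val < 61 then RTag.pad (eR ⟨i.val, h⟩) else r ⟨i.val - 61, by omega⟩
  have hrows : ∀ i, rows i ∈ rowSet J D P := by
    intro i
    simp only [rows]
    split_ifs with h
    · exact pad_mem_rowSet (heR3 _).1
    · exact hr _
  have hrowsg : ∀ i, rowFlips F (rows i) < 16 * m := by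
    intro i
    simp only [rows]
    split_ifs with h
    · have h1 := (heR3 ⟨i.val, h⟩).2.2
      by_contra hcon
      push Not at hcon
      exact h1 (mem_filter.2 ⟨pad_mem_rowSet (heR3 _).1, hcon⟩)
    · exact hgr _
  -- pad cols
  let exclC : Finset CTag := (univ : Finset (Fin 66)).biUnion (fun i => colsHit F (rows i))
  have hexclC : exclC.card ≤ 66 * (16 * m) := by
    refine card_biUnion_le.trans ?_
    calc ∑ i : Fin 66, (colsHit F (rows i)).card ≤ ∑ _j : Fin 66, 16 * m :=
          sum_le_sum (fun j _ => (card_colsHit_le F _).trans (hrowsg j).le)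
      _ = _ := by simp
  let candC : Finset ℕ := (range P').filter (fun i => CTag.pad i ∉ exclC)
  have hcandC : 61 ≤ candC.card := by
    have h1 : (range P' \ candC).image CTag.pad ⊆ exclC := by
      intro τ hτ
      obtain ⟨i, hi, rfl⟩ := mem_image.1 hτ
      rw [mem_sdiff, mem_filter] at hi
      by_contra hcon
      exact hi.2 ⟨hi.1, hcon⟩
    have h2 := card_le_card h1
    rw [card_image_of_injective _ (fun a b hab => by simpa using hab)] at h2
    have h5 : (range P' \ candC).card = P' - candC.card := by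
      rw [card_sdiff_of_subset (filter_subset _ _), card_range]
    have h6 : candC.card ≤ P' := by
      simpa using card_le_card (filter_subset _ (range P'))
    omega
  obtain ⟨eC, heC1, heC2⟩ := exists_pick 61 candC hcandC
  have heC3 : ∀ i, eC i < P' ∧ CTag.pad (eC i) ∉ exclC := by
    intro i
    have := heC1 i
    rw [mem_filter, mem_range] at this
    exact this
  let cols : Fin 66 → CTag := fun i =>
    if h : i.val < 61 then CTag.pad (eC ⟨i.val, h⟩) else s ⟨i.val - 61, by omega⟩
  have hcols : ∀ i, cols i ∈ colSet J D P' := by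
    intro i
    simp only [cols]
    split_ifs with h
    · exact pad_mem_colSet (heC3 _).1
    · exact hs _
  refine ⟨rows, cols, hrows, hcols, ?_, ?_, ?_⟩
  · intro i i' hlt
    have hlt' : i.val < i'.val := hlt
    simp only [rows]
    split_ifs with h1 h2 h2
    · have : eR ⟨i.val, h1⟩ < eR ⟨i'.val, h2⟩ := heR2 hlt
      simpa [rkey, mkKey_lt_iff] using this
    · apply rkey_of_rk_lt
      exact hr0 _
    · omega
    · apply hr2
      show i.val - 61 < i'.val - 61
      omega
  · intro i i' hlt
    have hlt' : i.val < i'.val := hlt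
    simp only [cols]
    split_ifs with h1 h2 h2
    · have : eC ⟨i.val, h1⟩ < eC ⟨i'.val, h2⟩ := heC2 hlt
      simpa [ckey, mkKey_lt_iff] using this
    · apply ckey_of_rk_lt
      exact hs0 _
    · omega
    · apply hs2
      show i.val - 61 < i'.val - 61
      omega
  · intro i j
    by_cases hj : j.val < 61
    · -- pad column
      have h1 : (rows i, cols j) ∉ F := by
        intro hmem
        have h2 : cols j ∈ exclC :=
          mem_biUnion.2 ⟨i, mem_univ _, mem_colsHit.2 hmem⟩
        have h3 : cols j = CTag.pad (eC ⟨j.val, hj⟩) := by simp only [cols, dif_pos hj]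
        rw [h3] at h2
        exact (heC3 _).2 h2
      rw [eq_of_not_mem_flips (hrows i) (hcols j) h1]
      have h3 : cols j = CTag.pad (eC ⟨j.val, hj⟩) := by simp only [cols, dif_pos hj]
      rw [h3, M_pad_col]
      simp only [HH, dif_neg (show ¬ (61 ≤ i.val ∧ 61 ≤ j.val) by omega)]
    · by_cases hi : i.val < 61
      · -- pad row
        have h1 : (rows i, cols j) ∉ F := by
          intro hmem
          have h3 : rows i = RTag.pad (eR ⟨i.val, hi⟩) := by simp only [rows, dif_pos hi]
          have h4 : cols j = s ⟨j.val - 61, by omega⟩ := by simp only [cols, dif_neg hj]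
          rw [h4] at hmem
          have h2 : rows i ∈ excl :=
            mem_biUnion.2 ⟨_, mem_univ _, mem_rowsHit.2 hmem⟩
          rw [h3] at h2
          exact (heR3 _).2.1 h2
        rw [eq_of_not_mem_flips (hrows i) (hcols j) h1]
        have h3 : rows i = RTag.pad (eR ⟨i.val, hi⟩) := by simp only [rows, dif_pos hi]
        rw [h3, M_pad_row]
        simp only [HH, dif_neg (show ¬ (61 ≤ i.val ∧ 61 ≤ j.val) by omega)]
      · have h3 : rows i = r ⟨i.val - 61, by omega⟩ := by simp only [rows, dif_neg hi]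
        have h4 : cols j = s ⟨j.val - 61, by omega⟩ := by simp only [cols, dif_neg hj]
        rw [h3, h4, hcore]
        simp only [HH, dif_pos (show (61 ≤ i.val ∧ 61 ≤ j.val) by omega)]

end Crest.Agent.Lib.ZigZagB
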