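/- Row 47 (S0066), Mod SMALL: small `h`, by the periodic matrix `A i j = H (i % 66) (j % 66)`.
Far: the blocks `[66 a, 66 a + 66) × [66 b, 66 b + 66)`, `a, b < 2^h`, are disjoint, and each must contain a
difference with any copy-free `B`. Few copies: a strictly monotone `Fin 66 → Fin n` is determined by its range, so there
are at most `n.choose 66 ≤ n^66 / 66!` of them, and `(386 h + 2)^2 * 2^h ≤ (66!)^2` for `h ≤ 20`. -/
import Crest.Prelude.Def_OrderedMatrix

set_option autoImplicit false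

namespace Crest.Agent.Lib.ZigZagB

open Crest.CombinatoricsR.OrderedMatrix

/-- The periodic matrix. -/
def periodicMatrix (H : Fin 66 → Fin 66 → Bool) (N : ℕ) : Fin N → Fin N → Bool :=
  fun r c => H ⟨r.1 % 66, Nat.mod_lt _ (by norm_num)⟩ ⟨c.1 % 66, Nat.mod_lt _ (by norm_num)⟩

/-- A strictly monotone map is determined by its range, so there are at most `n.choose k` of them. -/
theorem card_strictMono_le (k n : ℕ) :
    Fintype.card {f : Fin k → Fin n // StrictMono f} ≤ n.choose k := by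
  classical
  let g : {f : Fin k → Fin n // StrictMono f} → {s : Finset (Fin n) // s ∈ Finset.powersetCard k Finset.univ} :=
    fun f => ⟨Finset.univ.image f.1, by
      rw [Finset.mem_powersetCard]
      refine ⟨Finset.subset_univ _, ?_⟩
      rw [Finset.card_image_of_injective _ f.2.injective]
      simp⟩
  have hg : Function.Injective g := by
    intro f f' hff
    have h1 : Finset.univ.image f.1 = Finset.univ.image f'.1 := congrArg Subtype.val hff
    have h2 : Set.range f.1 = Set.range f'.1 := by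
      have := congrArg (fun s : Finset (Fin n) => (s : Set (Fin n))) h1
      simpa using this
    exact Subtype.ext ((StrictMono.range_inj f.2 f'.2).1 h2)
  have := Fintype.card_le_of_injective g hg
  simpa [Finset.card_powersetCard] using this

/-- The number of copies is at most `(n.choose k)^2`. -/
theorem copyCount_le {k n : ℕ} (H : Fin k → Fin k → Bool) (A : Fin n → Fin n → Bool) :
    orderedCopyCount H A ≤ (n.choose k) ^ 2 := by
  classical
  unfold orderedCopyCount
  let g : {rc : (Fin k → Fin n) × (Fin k → Fin n) //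
      StrictMono rc.1 ∧ StrictMono rc.2 ∧ ∀ i j : Fin k, A (rc.1 i) (rc.2 j) = H i j} →
      {f : Fin k → Fin n // StrictMono f} × {f : Fin k → Fin n // StrictMono f} :=
    fun x => (⟨x.1.1, x.2.1⟩, ⟨x.1.2, x.2.2.1⟩)
  have hg : Function.Injective g := by
    intro x y hxy
    have h1 : x.1.1 = y.1.1 := congrArg (fun z => z.1.1) hxy
    have h2 : x.1.2 = y.1.2 := congrArg (fun z => z.2.1) hxy
    exact Subtype.ext (Prod.ext h1 h2)
  have h3 := Fintype.card_le_of_injective g hg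
  rw [Fintype.card_prod] at h3
  have h4 := card_strictMono_le k n
  calc _ ≤ _ := h3
    _ ≤ n.choose k * n.choose k := Nat.mul_le_mul h4 h4
    _ = _ := (pow_two _).symm

/-- The far part: every block contains a difference. -/
theorem periodic_far (H : Fin 66 → Fin 66 → Bool) (h N : ℕ) (hN : 66 * 2 ^ h ≤ N)
    (B : Fin N → Fin N → Bool) (hB : orderedCopyCount H B = 0) :
    4 ^ h ≤ (Finset.univ.filter (fun rc : Fin N × Fin N =>
      periodicMatrix H N rc.1 rc.2 ≠ B rc.1 rc.2)).card := by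
  classical
  have hlt : ∀ (a : Fin (2 ^ h)) (i : Fin 66), 66 * a.1 + i.1 < N := by
    intro a i
    have h1 : a.1 + 1 ≤ 2 ^ h := a.2
    have h2 : i.1 < 66 := i.2
    nlinarith
  have hempty : IsEmpty {rc : (Fin 66 → Fin N) × (Fin 66 → Fin N) //
      StrictMono rc.1 ∧ StrictMono rc.2 ∧ ∀ i j : Fin 66, B (rc.1 i) (rc.2 j) = H i j} := by
    unfold orderedCopyCount at hB
    exact Fintype.card_eq_zero_iff.mp hB
  have hex : ∀ p : Fin (2 ^ h) × Fin (2 ^ h), ∃ q : Fin 66 × Fin 66,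
      B ⟨66 * p.1.1 + q.1.1, hlt p.1 q.1⟩ ⟨66 * p.2.1 + q.2.1, hlt p.2 q.2⟩ ≠ H q.1 q.2 := by
    intro p
    by_contra hcon
    push Not at hcon
    refine hempty.false ⟨(fun i => ⟨66 * p.1.1 + i.1, hlt p.1 i⟩, fun j => ⟨66 * p.2.1 + j.1, hlt p.2 j⟩), ?_, ?_, ?_⟩
    · intro i i' hii
      simp only [Fin.mk_lt_mk]
      have : i.1 < i'.1 := hii
      omega
    · intro i i' hii
      simp only [Fin.mk_lt_mk]
      have : i.1 < i'.1 := hii
      omega
    · intro i j
      exact hcon (i, j)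
  choose q hq using hex
  let f : Fin (2 ^ h) × Fin (2 ^ h) → Fin N × Fin N :=
    fun p => (⟨66 * p.1.1 + (q p).1.1, hlt p.1 (q p).1⟩, ⟨66 * p.2.1 + (q p).2.1, hlt p.2 (q p).2⟩)
  have hf : Function.Injective f := by
    intro p p' hpp
    have h1 : 66 * p.1.1 + (q p).1.1 = 66 * p'.1.1 + (q p').1.1 :=
      congrArg (fun z : Fin N × Fin N => z.1.1) hpp
    have h2 : 66 * p.2.1 + (q p).2.1 = 66 * p'.2.1 + (q p').2.1 :=
      congrArg (fun z : Fin N × Fin N => z.2.1) hpp
    have a1 := (q p).1.2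
    have a2 := (q p').1.2
    have a3 := (q p).2.2
    have a4 := (q p').2.2
    refine Prod.ext (Fin.ext ?_) (Fin.ext ?_) <;> omega
  have hmem : ∀ p, f p ∈ Finset.univ.filter (fun rc : Fin N × Fin N =>
      periodicMatrix H N rc.1 rc.2 ≠ B rc.1 rc.2) := by
    intro p
    rw [Finset.mem_filter]
    refine ⟨Finset.mem_univ _, ?_⟩
    have hA : periodicMatrix H N (f p).1 (f p).2 = H (q p).1 (q p).2 := by
      unfold periodicMatrix
      congr 1
      · apply Fin.ext
        show (66 * p.1.1 + (q p).1.1) % 66 = (q p).1.1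
        have := (q p).1.2
        omega
      · apply Fin.ext
        show (66 * p.2.1 + (q p).2.1) % 66 = (q p).2.1
        have := (q p).2.2
        omega
    rw [hA]
    exact fun h' => hq p h'.symm
  have hcard : (Finset.univ : Finset (Fin (2 ^ h) × Fin (2 ^ h))).card ≤
      (Finset.univ.filter (fun rc : Fin N × Fin N =>
        periodicMatrix H N rc.1 rc.2 ≠ B rc.1 rc.2)).card :=
    Finset.card_le_card_of_injOn f (fun p _ => hmem p) (fun p _ p' _ hpp => hf hpp)
  have h4 : (Finset.univ : Finset (Fin (2 ^ h) × Fin (2 ^ h))).card = 4 ^ h := by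
    rw [Finset.card_univ, Fintype.card_prod, Fintype.card_fin, ← mul_pow]
    norm_num
  omega

theorem small_case (H : Fin 66 → Fin 66 → Bool) (h : ℕ) (hh : 1 ≤ h) (hh2 : h ≤ 20) :
    ∃ A : Fin ((386 * h + 2) * 2 ^ h) → Fin ((386 * h + 2) * 2 ^ h) → Bool,
      (∀ B : Fin ((386 * h + 2) * 2 ^ h) → Fin ((386 * h + 2) * 2 ^ h) → Bool,
        Crest.CombinatoricsR.OrderedMatrix.orderedCopyCount H B = 0 →
          ((386 * (h : ℝ) + 2) ^ 2)⁻¹ * (((386 * h + 2) * 2 ^ h : ℕ) : ℝ) ^ 2 ≤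
            ((Finset.univ.filter (fun rc : Fin ((386 * h + 2) * 2 ^ h) × Fin ((386 * h + 2) * 2 ^ h) =>
              A rc.1 rc.2 ≠ B rc.1 rc.2)).card : ℝ)) ∧
      (Crest.CombinatoricsR.OrderedMatrix.orderedCopyCount H A : ℝ) /
          (((386 * h + 2) * 2 ^ h : ℕ) : ℝ) ^ 132 ≤
        ((386 * (h : ℝ) + 2) ^ 2)⁻¹ * (2 : ℝ)⁻¹ ^ h := by
  have hpos : (0 : ℝ) < 386 * (h : ℝ) + 2 := by positivity
  have h2pos : (0 : ℝ) < 2 ^ h := by positivity
  refine ⟨periodicMatrix H _, ?_, ?_⟩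
  · intro B hB
    have hN : 66 * 2 ^ h ≤ (386 * h + 2) * 2 ^ h := by
      apply Nat.mul_le_mul_right
      omega
    have hfar := periodic_far H h _ hN B hB
    have hcast : ((4 : ℝ) ^ h) ≤ ((Finset.univ.filter (fun rc : Fin ((386 * h + 2) * 2 ^ h) × Fin ((386 * h + 2) * 2 ^ h) =>
        periodicMatrix H _ rc.1 rc.2 ≠ B rc.1 rc.2)).card : ℝ) := by
      exact_mod_cast hfar
    refine le_trans (le_of_eq ?_) hcast
    push_cast
    have h4 : (4 : ℝ) ^ h = (2 ^ h) ^ 2 := by
      rw [← pow_mul, mul_comm, pow_mul]; norm_num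
    rw [h4]
    field_simp
  · have hNpos : (0 : ℝ) < (((386 * h + 2) * 2 ^ h : ℕ) : ℝ) := by
      have : 0 < (386 * h + 2) * 2 ^ h := by positivity
      exact_mod_cast this
    set N : ℕ := (386 * h + 2) * 2 ^ h with hNdef
    have h1 : ((orderedCopyCount H (periodicMatrix H N) : ℕ) : ℝ) ≤ (((N.choose 66 : ℕ) : ℝ)) ^ 2 := by
      exact_mod_cast copyCount_le H (periodicMatrix H N)
    have h2 : ((N.choose 66 : ℕ) : ℝ) ≤ (N : ℝ) ^ 66 / (Nat.factorial 66 : ℝ) := Nat.choose_le_pow_div 66 N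
    have h3 : (((N.choose 66 : ℕ) : ℝ)) ^ 2 ≤ ((N : ℝ) ^ 66 / (Nat.factorial 66 : ℝ)) ^ 2 :=
      pow_le_pow_left₀ (by positivity) h2 2
    have hfac : (0 : ℝ) < (Nat.factorial 66 : ℝ) := by exact_mod_cast Nat.factorial_pos 66
    have h4 : ((orderedCopyCount H (periodicMatrix H N) : ℕ) : ℝ) / (N : ℝ) ^ 132 ≤
        (((Nat.factorial 66 : ℕ) : ℝ) ^ 2)⁻¹ := by
      rw [div_le_iff₀ (by positivity)]
      refine le_trans (le_trans h1 h3) (le_of_eq ?_)
      have : (N : ℝ) ^ 132 = ((N : ℝ) ^ 66) ^ 2 := by rw [← pow_mul]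
      rw [this, div_pow]
      field_simp
    refine le_trans h4 ?_
    have hbig : ((386 * h + 2) ^ 2 * 2 ^ h : ℕ) ≤ (Nat.factorial 66) ^ 2 := by
      have a1 : (386 * h + 2) ^ 2 ≤ (386 * 20 + 2) ^ 2 := Nat.pow_le_pow_left (by omega) 2
      have a2 : 2 ^ h ≤ 2 ^ 20 := Nat.pow_le_pow_right (by norm_num) hh2
      have a3 : (386 * 20 + 2) ^ 2 * 2 ^ 20 ≤ (Nat.factorial 66) ^ 2 := by
        norm_num [Nat.factorial]
      exact le_trans (Nat.mul_le_mul a1 a2) a3
    have hbig' : ((386 * (h : ℝ) + 2) ^ 2 * 2 ^ h) ≤ ((Nat.factorial 66 : ℕ) : ℝ) ^ 2 := by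
      exact_mod_cast hbig
    have hrw : ((386 * (h : ℝ) + 2) ^ 2)⁻¹ * (2 : ℝ)⁻¹ ^ h = ((386 * (h : ℝ) + 2) ^ 2 * 2 ^ h)⁻¹ := by
      rw [inv_pow, mul_inv]
    rw [hrw]
    exact inv_anti₀ (by positivity) hbig'

end Crest.Agent.Lib.ZigZagB
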